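import Vale.Agent.P367.Gap.Values

open MeasureTheory ProbabilityTheory

namespace Vale.Agent.P367.H84

open Vale.Agent.P367.Gap

/-- The probability that a measurement of the depth-`p` QAOA state of the instance `J` in the
computational basis gives a string `z` with `|h(z)/n - P_*| ≤ ε`. -/
noncomputable def nearProb {n : ℕ} (J : Pair n → ℝ) (p : ℕ) (γ β : Fin p → ℝ) (ε : ℝ) : ℝ :=
  ∑ z : Conf n, {z : Conf n | |(n : ℝ)⁻¹ * skEnergy J z - Pstar| ≤ ε}.indicator
    (fun z => ‖qaoaState J p γ β z‖ ^ 2) z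

/-- The expected value of `|h(z)/n - P_*|` over the couplings `J` and over the measured
string `z`. -/
noncomputable def meanErr (n p : ℕ) (γ β : Fin p → ℝ) : ℝ :=
  ∫ J, ∑ z : Conf n, ‖qaoaState J p γ β z‖ ^ 2 * |(n : ℝ)⁻¹ * skEnergy J z - Pstar|
    ∂(couplingLaw n)

end Vale.Agent.P367.H84
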