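import Vale.Agent.P367.Gap.Defs

/-!
# P367 : universality of the ground state energy (Lindeberg), one variable and product measures
(helper84)
-/

set_option linter.all false

namespace Vale.Agent.P367.H84.U

open Finset MeasureTheory ProbabilityTheory Filter Topology

/-- log-partition function of one coupling -/
noncomputable def lg (A B u : ℝ) : ℝ := Real.log (A * Real.exp u + B * Real.exp (-u))

/-- its derivative -/
noncomputable def mg (A B u : ℝ) : ℝ :=
  (A * Real.exp u - B * Real.exp (-u)) / (A * Real.exp u + B * Real.exp (-u))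

section one
variable {A B : ℝ} (hA : 0 ≤ A) (hB : 0 ≤ B) (hAB : 0 < A + B)
include hA hB hAB

lemma den_pos (u : ℝ) : 0 < A * Real.exp u + B * Real.exp (-u) := by
  have h1 := Real.exp_pos u
  have h2 := Real.exp_pos (-u)
  rcases hA.lt_or_eq with h | h
  · have : 0 < A * Real.exp u := by positivity
    have : 0 ≤ B * Real.exp (-u) := by positivity
    linarith
  · have hB' : 0 < B := by linarith
    have : 0 < B * Real.exp (-u) := by positivity
    have : 0 ≤ A * Real.exp u := by positivity
    linarith

lemma hasDerivAt_lg (u : ℝ) : HasDerivAt (lg A B) (mg A B u) u := by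
  have hd := den_pos hA hB hAB u
  have h1 : HasDerivAt (fun u => A * Real.exp u + B * Real.exp (-u))
      (A * Real.exp u + B * (Real.exp (-u) * (-1))) u :=
    ((Real.hasDerivAt_exp u).const_mul A).add
      (((hasDerivAt_neg u).exp).const_mul B)
  have h2 := h1.log hd.ne'
  unfold lg mg
  convert h2 using 1
  ring

lemma hasDerivAt_mg (u : ℝ) : HasDerivAt (mg A B) (1 - mg A B u ^ 2) u := by
  have hd := den_pos hA hB hAB u
  have h1 : HasDerivAt (fun u => A * Real.exp u + B * Real.exp (-u))
      (A * Real.exp u + B * (Real.exp (-u) * (-1))) u :=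
    ((Real.hasDerivAt_exp u).const_mul A).add
      (((hasDerivAt_neg u).exp).const_mul B)
  have h2 : HasDerivAt (fun u => A * Real.exp u - B * Real.exp (-u))
      (A * Real.exp u - B * (Real.exp (-u) * (-1))) u :=
    ((Real.hasDerivAt_exp u).const_mul A).sub
      (((hasDerivAt_neg u).exp).const_mul B)
  have h3 := h2.div h1 hd.ne'
  have h4 : 1 - mg A B u ^ 2 = ((A * Real.exp u - B * (Real.exp (-u) * (-1))) *
      (A * Real.exp u + B * Real.exp (-u)) - (A * Real.exp u - B * Real.exp (-u)) *
      (A * Real.exp u + B * (Real.exp (-u) * (-1)))) /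
      (A * Real.exp u + B * Real.exp (-u)) ^ 2 := by
    unfold mg
    rw [eq_div_iff (pow_ne_zero 2 hd.ne'), sub_mul, div_pow,
      div_mul_cancel₀ _ (pow_ne_zero 2 hd.ne')]
    ring
  rw [h4]
  exact h3

lemma abs_mg_le (u : ℝ) : |mg A B u| ≤ 1 := by
  have hd := den_pos hA hB hAB u
  unfold mg
  have h1 : 0 ≤ A * Real.exp u := by positivity
  have h2 : 0 ≤ B * Real.exp (-u) := by positivity
  rw [abs_div, abs_of_pos hd, div_le_one hd, abs_le]
  constructor <;> linarith

lemma mg_sq_le (u : ℝ) : mg A B u ^ 2 ≤ 1 := by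
  rw [← sq_abs]
  have := abs_mg_le hA hB hAB u
  have h0 := abs_nonneg (mg A B u)
  nlinarith

lemma mg_lip (t : ℝ) : |mg A B t - mg A B 0| ≤ |t| := by
  have h := Convex.norm_image_sub_le_of_norm_hasDerivWithin_le (f := mg A B)
    (f' := fun u => 1 - mg A B u ^ 2) (C := 1) (s := Set.univ) (x := 0) (y := t)
    (fun u _ => (hasDerivAt_mg hA hB hAB u).hasDerivWithinAt) (fun u _ => by
      rw [Real.norm_eq_abs, abs_le]
      have := mg_sq_le hA hB hAB u
      constructor <;> nlinarith [sq_nonneg (mg A B u)]) convex_univ (Set.mem_univ _)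
      (Set.mem_univ _)
  simpa using h

lemma lg_taylor (u : ℝ) :
    |lg A B u - (lg A B 0 + mg A B 0 * u + (1 - mg A B 0 ^ 2) / 2 * u ^ 2)| ≤ 2 * |u| ^ 3 := by
  set m0 := mg A B 0 with hm0
  have hle : ∀ t ∈ Set.uIcc 0 u, |t| ≤ |u| := by
    intro t ht
    have := Set.abs_sub_left_of_mem_uIcc ht
    simpa using this
  have hr1 : ∀ t ∈ Set.uIcc 0 u, |mg A B t - m0 - (1 - m0 ^ 2) * t| ≤ 2 * |u| ^ 2 := by
    intro t ht
    have h := Convex.norm_image_sub_le_of_norm_hasDerivWithin_le
      (f := fun t => mg A B t - m0 - (1 - m0 ^ 2) * t)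
      (f' := fun t => (1 - mg A B t ^ 2) - 0 - (1 - m0 ^ 2) * 1) (C := 2 * |u|)
      (s := Set.uIcc 0 u) (x := 0) (y := t)
      (fun v _ => ((((hasDerivAt_mg hA hB hAB v).sub (hasDerivAt_const v m0))).sub
        ((hasDerivAt_id v).const_mul (1 - m0 ^ 2))).hasDerivWithinAt) (fun v hv => by
          rw [Real.norm_eq_abs]
          have e1 : (1 - mg A B v ^ 2) - 0 - (1 - m0 ^ 2) * 1
              = -((mg A B v - m0) * (mg A B v + m0)) := by ring
          rw [e1, abs_neg, abs_mul]
          have e2 := mg_lip hA hB hAB v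
          have e3 : |mg A B v + m0| ≤ 2 := by
            have := abs_add_le (mg A B v) m0
            have a1 := abs_mg_le hA hB hAB v
            have a2 := abs_mg_le hA hB hAB 0
            linarith
          have e4 := hle v hv
          calc |mg A B v - m0| * |mg A B v + m0| ≤ |u| * 2 := by
                apply mul_le_mul (e2.trans e4) e3 (abs_nonneg _) (abs_nonneg _)
            _ = 2 * |u| := by ring) (convex_uIcc 0 u) Set.left_mem_uIcc ht
    simp only [mul_zero, sub_zero, Real.norm_eq_abs] at h
    have e5 : mg A B 0 - m0 = 0 := by rw [hm0]; ring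
    rw [e5, sub_zero] at h
    refine h.trans ?_
    have e4 := hle t ht
    have e6 : 0 ≤ |u| := abs_nonneg u
    nlinarith
  have h := Convex.norm_image_sub_le_of_norm_hasDerivWithin_le
      (f := fun t => lg A B t - m0 * t - (1 - m0 ^ 2) / 2 * t ^ 2)
      (f' := fun t => mg A B t - m0 * 1 - (1 - m0 ^ 2) / 2 * (2 * t)) (C := 2 * |u| ^ 2)
      (s := Set.uIcc 0 u) (x := 0) (y := u)
      (fun v _ => (((hasDerivAt_lg hA hB hAB v).sub ((hasDerivAt_id v).const_mul m0)).sub
        (by
          have := (hasDerivAt_pow 2 v).const_mul ((1 - m0 ^ 2) / 2)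
          simpa using this)).hasDerivWithinAt) (fun v hv => by
          rw [Real.norm_eq_abs]
          have e1 : mg A B v - m0 * 1 - (1 - m0 ^ 2) / 2 * (2 * v)
              = mg A B v - m0 - (1 - m0 ^ 2) * v := by ring
          rw [e1]
          exact hr1 v hv) (convex_uIcc 0 u) Set.left_mem_uIcc Set.right_mem_uIcc
  simp only [Real.norm_eq_abs, sub_zero] at h
  have e7 : lg A B u - (lg A B 0 + m0 * u + (1 - m0 ^ 2) / 2 * u ^ 2)
      = lg A B u - m0 * u - (1 - m0 ^ 2) / 2 * u ^ 2
        - (lg A B 0 - m0 * 0 - (1 - m0 ^ 2) / 2 * 0 ^ 2) := by ring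
  rw [e7]
  refine h.trans (le_of_eq ?_)
  ring

lemma lg_taylor_two (u : ℝ) :
    |lg A B u - (lg A B 0 + mg A B 0 * u + (1 - mg A B 0 ^ 2) / 2 * u ^ 2)| ≤ 2 * u ^ 2 := by
  set m0 := mg A B 0 with hm0
  have hle : ∀ t ∈ Set.uIcc 0 u, |t| ≤ |u| := by
    intro t ht
    have := Set.abs_sub_left_of_mem_uIcc ht
    simpa using this
  have h := Convex.norm_image_sub_le_of_norm_hasDerivWithin_le
      (f := fun t => lg A B t - m0 * t)
      (f' := fun t => mg A B t - m0 * 1) (C := |u|)
      (s := Set.uIcc 0 u) (x := 0) (y := u)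
      (fun v _ => ((hasDerivAt_lg hA hB hAB v).sub
        ((hasDerivAt_id v).const_mul m0)).hasDerivWithinAt) (fun v hv => by
          rw [Real.norm_eq_abs, mul_one]
          exact (mg_lip hA hB hAB v).trans (hle v hv))
      (convex_uIcc 0 u) Set.left_mem_uIcc Set.right_mem_uIcc
  simp only [Real.norm_eq_abs, sub_zero, mul_zero] at h
  rw [abs_mul_abs_self] at h
  have h1 := mg_sq_le hA hB hAB 0
  rw [← hm0] at h1
  have h2 := sq_nonneg m0
  have h3 := sq_nonneg u
  rw [abs_le] at h ⊢
  constructor <;> nlinarith [h.1, h.2]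

/-- the remainder, bounded by the better of the two estimates -/
lemma lg_taylor_min (u : ℝ) :
    |lg A B u - (lg A B 0 + mg A B 0 * u + (1 - mg A B 0 ^ 2) / 2 * u ^ 2)|
      ≤ 2 * (u ^ 2 * min |u| 1) := by
  rcases le_total |u| 1 with h | h
  · rw [min_eq_left h]
    refine (lg_taylor hA hB hAB u).trans (le_of_eq ?_)
    rw [pow_succ, sq_abs]
  · rw [min_eq_right h, mul_one]
    exact lg_taylor_two hA hB hAB u

end one

/-- replacing one coordinate of a product measure -/
lemma mp_update {ι : Type*} [Fintype ι] [DecidableEq ι] (ρ : ι → Measure ℝ)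
    [∀ i, IsProbabilityMeasure (ρ i)] (m : Measure ℝ) [IsProbabilityMeasure m] (e : ι)
    [∀ i, SigmaFinite (Function.update ρ e m i)] :
    MeasurePreserving (fun z : (ι → ℝ) × ℝ => Function.update z.1 e z.2)
      ((Measure.pi ρ).prod m) (Measure.pi (Function.update ρ e m)) := by
  have hm : Measurable (fun z : (ι → ℝ) × ℝ => Function.update z.1 e z.2) := by
    refine measurable_pi_iff.2 fun i => ?_
    by_cases h : i = e
    · subst h
      simpa using measurable_snd
    · simp only [Function.update_of_ne h]
      exact (measurable_pi_apply i).comp measurable_fst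
  refine ⟨hm, ?_⟩
  symm
  apply Measure.pi_eq
  intro s hs
  rw [Measure.map_apply hm (MeasurableSet.univ_pi hs)]
  have h1 : (fun z : (ι → ℝ) × ℝ => Function.update z.1 e z.2) ⁻¹' (Set.univ.pi s)
      = (Set.univ.pi (Function.update s e Set.univ)) ×ˢ (s e) := by
    ext z
    simp only [Set.mem_preimage, Set.mem_pi, Set.mem_univ, forall_true_left, Set.mem_prod]
    constructor
    · intro h
      refine ⟨fun i => ?_, ?_⟩
      · by_cases hi : i = e
        · subst hi; simp
        · rw [Function.update_of_ne hi]
          have := h i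
          rwa [Function.update_of_ne hi] at this
      · have := h e
        rwa [Function.update_self] at this
    · rintro ⟨h, h'⟩ i
      by_cases hi : i = e
      · subst hi
        rwa [Function.update_self]
      · rw [Function.update_of_ne hi]
        have := h i
        rwa [Function.update_of_ne hi] at this
  rw [h1, Measure.prod_prod, Measure.pi_pi, ← mul_prod_erase univ _ (mem_univ e),
    ← mul_prod_erase univ (fun i => (Function.update ρ e m i) (s i)) (mem_univ e)]
  simp only [Function.update_self, measure_univ, one_mul]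
  rw [mul_comm]
  congr 1
  refine prod_congr rfl fun i hi => ?_
  rw [Function.update_of_ne (mem_erase.1 hi).1, Function.update_of_ne (mem_erase.1 hi).1]

section lind
variable {ι : Type*} [Fintype ι] [DecidableEq ι]

/-- functions of at most linear growth are integrable -/
lemma integrable_of_lin (ρ : ι → Measure ℝ) [∀ i, IsProbabilityMeasure (ρ i)]
    (hρ : ∀ i, Integrable (fun x : ℝ => x) (ρ i)) {F : (ι → ℝ) → ℝ} (hF : Measurable F)
    {C : ℝ} (hC : ∀ x, |F x| ≤ C * (1 + ∑ i, |x i|)) : Integrable F (Measure.pi ρ) := by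
  have h1 : Integrable (fun x : ι → ℝ => C * (1 + ∑ i, |x i|)) (Measure.pi ρ) := by
    refine Integrable.const_mul ?_ _
    refine (integrable_const _).add (integrable_finsetSum _ fun i _ => ?_)
    exact ((measurePreserving_eval ρ i).integrable_comp_of_integrable (hρ i)).abs
  refine h1.mono' hF.aestronglyMeasurable ?_
  exact Filter.Eventually.of_forall fun x => by
    rw [Real.norm_eq_abs]; exact hC x

/-- **Lindeberg replacement.** -/
theorem lindeberg (μ ν : Measure ℝ) [IsProbabilityMeasure μ] [IsProbabilityMeasure ν]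
    (hμ : Integrable (fun x : ℝ => x) μ) (hν : Integrable (fun x : ℝ => x) ν)
    {F : (ι → ℝ) → ℝ} (hF : Measurable F) {C : ℝ} (hC : ∀ x, |F x| ≤ C * (1 + ∑ i, |x i|))
    {δ : ℝ} (h : ∀ (x : ι → ℝ) (e : ι),
      |∫ t, F (Function.update x e t) ∂μ - ∫ t, F (Function.update x e t) ∂ν| ≤ δ) :
    |∫ x, F x ∂(Measure.pi fun _ : ι => μ) - ∫ x, F x ∂(Measure.pi fun _ : ι => ν)|
      ≤ Fintype.card ι * δ := by
  have key : ∀ S : Finset ι, ∀ ρ : ι → Measure ℝ, (∀ i, ρ i = if i ∈ S then μ else ν) →
      |∫ x, F x ∂(Measure.pi ρ) - ∫ x, F x ∂(Measure.pi fun _ : ι => ν)| ≤ S.card * δ := by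
    intro S
    induction S using Finset.induction_on with
    | empty =>
      intro ρ hρ
      have : ρ = fun _ => ν := by
        funext i
        rw [hρ i]
        simp
      rw [this]
      simp
    | insert e S he ih =>
      intro ρ' hρ'
      let ρ : ι → Measure ℝ := fun i => if i ∈ S then μ else ν
      have hρ : ∀ i, ρ i = if i ∈ S then μ else ν := fun _ => rfl
      haveI : ∀ i, IsProbabilityMeasure (ρ i) := fun i => by
        rw [hρ]; split_ifs <;> infer_instance
      haveI : ∀ i, IsProbabilityMeasure (ρ' i) := fun i => by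
        rw [hρ']; split_ifs <;> infer_instance
      have hi : ∀ i, Integrable (fun x : ℝ => x) (ρ i) := fun i => by
        rw [hρ]; split_ifs <;> assumption
      have hi' : ∀ i, Integrable (fun x : ℝ => x) (ρ' i) := fun i => by
        rw [hρ']; split_ifs <;> assumption
      have e1 : ρ' = Function.update ρ e μ := by
        funext i
        by_cases h' : i = e
        · subst h'
          rw [hρ', Function.update_self, if_pos (mem_insert_self _ _)]
        · rw [hρ', Function.update_of_ne h', hρ]
          simp [mem_insert, h']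
      have e2 : ρ = Function.update ρ e ν := by
        funext i
        by_cases h' : i = e
        · subst h'
          rw [Function.update_self, hρ, if_neg he]
        · rw [Function.update_of_ne h']
      haveI s1 : ∀ i, IsProbabilityMeasure (Function.update ρ e μ i) := by
        rw [← e1]; infer_instance
      haveI s2 : ∀ i, IsProbabilityMeasure (Function.update ρ e ν i) := by
        rw [← e2]; infer_instance
      have p1 := mp_update ρ μ e
      have p2 := mp_update ρ ν e
      rw [← e1] at p1
      rw [← e2] at p2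
      have i1 := p1.integrable_comp_of_integrable (integrable_of_lin ρ' hi' hF hC)
      have i2 := p2.integrable_comp_of_integrable (integrable_of_lin ρ hi hF hC)
      have q1 : ∫ x, F x ∂(Measure.pi ρ') = ∫ x, (∫ t, F (Function.update x e t) ∂μ)
          ∂(Measure.pi ρ) := by
        rw [← p1.map_eq, integral_map p1.measurable.aemeasurable hF.aestronglyMeasurable]
        exact integral_prod _ i1
      have q2 : ∫ x, F x ∂(Measure.pi ρ) = ∫ x, (∫ t, F (Function.update x e t) ∂ν)
          ∂(Measure.pi ρ) := by
        conv_lhs => rw [← p2.map_eq]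
        rw [integral_map p2.measurable.aemeasurable hF.aestronglyMeasurable]
        exact integral_prod _ i2
      have q3 : |∫ x, F x ∂(Measure.pi ρ') - ∫ x, F x ∂(Measure.pi ρ)| ≤ δ := by
        have j1 : Integrable (fun x => ∫ t, F (Function.update x e t) ∂μ) (Measure.pi ρ) :=
          i1.integral_prod_left
        have j2 : Integrable (fun x => ∫ t, F (Function.update x e t) ∂ν) (Measure.pi ρ) :=
          i2.integral_prod_left
        rw [q1, q2, ← integral_sub j1 j2]
        have := norm_integral_le_of_norm_le_const (μ := Measure.pi ρ)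
          (f := fun x => ∫ t, F (Function.update x e t) ∂μ - ∫ t, F (Function.update x e t) ∂ν)
          (C := δ) (Filter.Eventually.of_forall fun x => by
            rw [Real.norm_eq_abs]; exact h x e)
        simpa using this
      have q4 := ih ρ hρ
      rw [card_insert_of_notMem he]
      push_cast
      have q5 := abs_sub_le (∫ x, F x ∂(Measure.pi ρ')) (∫ x, F x ∂(Measure.pi ρ))
        (∫ x, F x ∂(Measure.pi fun _ : ι => ν))
      linarith
  have := key univ (fun _ => μ) (fun i => by simp)
  rwa [card_univ] at this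

end lind

end Vale.Agent.P367.H84.U
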