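import Vale.Agent.P367.H84.G1

/-!
# P367 : universality of the ground state energy (Lindeberg) (helper84)
-/

set_option linter.all false

namespace Vale.Agent.P367.H84.U

open Finset MeasureTheory ProbabilityTheory Filter Topology
open Vale.Agent.P367.Gap

variable {n : ℕ}

/-- free energy at inverse temperature `b` -/
noncomputable def fe (b : ℝ) (x : Pair n → ℝ) : ℝ :=
  b⁻¹ * Real.log (∑ s : Conf n, Real.exp (b * skEnergy x s))

/-- pair character -/
noncomputable def ch (s : Conf n) (e : Pair n) : ℝ := spin (s e.1.1) * spin (s e.1.2)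

lemma ch_cases (s : Conf n) (e : Pair n) : ch s e = 1 ∨ ch s e = -1 := by
  unfold ch spin
  split_ifs <;> norm_num

lemma skEnergy_update (x : Pair n → ℝ) (e : Pair n) (t : ℝ) (s : Conf n) :
    skEnergy (Function.update x e t) s = skEnergy (Function.update x e 0) s
      + (Real.sqrt n)⁻¹ * t * ch s e := by
  unfold skEnergy
  rw [← add_sum_erase univ _ (mem_univ e), ← add_sum_erase univ (fun e' =>
    Function.update x e 0 e' * (spin (s e'.1.1) * spin (s e'.1.2))) (mem_univ e)]
  have h1 : ∀ t : ℝ, ∑ e' ∈ univ.erase e, Function.update x e t e' *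
      (spin (s e'.1.1) * spin (s e'.1.2))
      = ∑ e' ∈ univ.erase e, x e' * (spin (s e'.1.1) * spin (s e'.1.2)) := by
    intro t
    refine sum_congr rfl fun e' he' => ?_
    rw [Function.update_of_ne (mem_erase.1 he').1]
  rw [h1, h1]
  simp only [Function.update_self, zero_mul, zero_add, ch]
  ring

lemma abs_skEnergy_le (x : Pair n → ℝ) (s : Conf n) :
    |skEnergy x s| ≤ (Real.sqrt n)⁻¹ * ∑ e, |x e| := by
  unfold skEnergy
  have h0 : (0 : ℝ) ≤ (Real.sqrt n)⁻¹ := by positivity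
  rw [abs_mul, abs_of_nonneg h0]
  refine mul_le_mul_of_nonneg_left ((abs_sum_le_sum_abs _ _).trans (sum_le_sum fun e _ => ?_)) h0
  rw [abs_mul]
  have h1 : |spin (s e.1.1) * spin (s e.1.2)| = 1 := by
    rcases ch_cases s e with h | h <;> · unfold ch at h; rw [h]; norm_num
  rw [h1, mul_one]

lemma bdd (x : Pair n → ℝ) : BddAbove (Set.range fun s : Conf n => skEnergy x s) :=
  (Set.finite_range _).bddAbove

lemma abs_sup_le (x : Pair n → ℝ) :
    |⨆ s : Conf n, skEnergy x s| ≤ (Real.sqrt n)⁻¹ * ∑ e, |x e| := by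
  rw [abs_le]
  constructor
  · have h1 := le_ciSup (bdd x) (fun _ => false)
    have h2 := (abs_le.1 (abs_skEnergy_le x (fun _ => false))).1
    exact h2.trans h1
  · exact ciSup_le fun s => (abs_le.1 (abs_skEnergy_le x s)).2

lemma sum_exp_pos (b : ℝ) (x : Pair n → ℝ) : 0 < ∑ s : Conf n, Real.exp (b * skEnergy x s) :=
  sum_pos (fun _ _ => Real.exp_pos _) univ_nonempty

lemma sup_le_fe {b : ℝ} (hb : 0 < b) (x : Pair n → ℝ) : ⨆ s : Conf n, skEnergy x s ≤ fe b x := by
  refine ciSup_le fun s => ?_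
  unfold fe
  rw [le_inv_mul_iff₀ hb, Real.le_log_iff_exp_le (sum_exp_pos b x)]
  exact single_le_sum (f := fun s : Conf n => Real.exp (b * skEnergy x s))
    (fun _ _ => (Real.exp_pos _).le) (mem_univ s)

lemma fe_le_sup {b : ℝ} (hb : 0 < b) (x : Pair n → ℝ) :
    fe b x ≤ (⨆ s : Conf n, skEnergy x s) + b⁻¹ * (n * Real.log 2) := by
  unfold fe
  rw [← sub_nonneg]
  have h1 : Real.log (∑ s : Conf n, Real.exp (b * skEnergy x s))
      ≤ n * Real.log 2 + b * ⨆ s : Conf n, skEnergy x s := by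
    rw [Real.log_le_iff_le_exp (sum_exp_pos b x), Real.exp_add]
    have h2 : ∑ s : Conf n, Real.exp (b * skEnergy x s)
        ≤ ∑ _s : Conf n, Real.exp (b * ⨆ s : Conf n, skEnergy x s) := by
      refine sum_le_sum fun s _ => Real.exp_le_exp.2 ?_
      exact mul_le_mul_of_nonneg_left (le_ciSup (bdd x) s) hb.le
    refine h2.trans (le_of_eq ?_)
    rw [sum_const, card_univ, Fintype.card_fun, Fintype.card_fin, Fintype.card_bool, nsmul_eq_mul]
    congr 1
    rw [Real.exp_nat_mul, Real.exp_log (by norm_num)]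
    push_cast
    rfl
  have h3 : (⨆ s : Conf n, skEnergy x s) + b⁻¹ * (n * Real.log 2)
      - b⁻¹ * Real.log (∑ s : Conf n, Real.exp (b * skEnergy x s))
      = b⁻¹ * ((n * Real.log 2 + b * ⨆ s : Conf n, skEnergy x s)
        - Real.log (∑ s : Conf n, Real.exp (b * skEnergy x s))) := by
    field_simp
    ring
  rw [h3]
  have : 0 ≤ b⁻¹ := by positivity
  exact mul_nonneg this (by linarith)

/-- weight of the configurations with positive character -/
noncomputable def pA (b : ℝ) (x : Pair n → ℝ) (e : Pair n) : ℝ :=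
  ∑ s : Conf n, if ch s e = 1 then Real.exp (b * skEnergy (Function.update x e 0) s) else 0

/-- weight of the configurations with negative character -/
noncomputable def pB (b : ℝ) (x : Pair n → ℝ) (e : Pair n) : ℝ :=
  ∑ s : Conf n, if ch s e = 1 then 0 else Real.exp (b * skEnergy (Function.update x e 0) s)

lemma pA_nonneg (b : ℝ) (x : Pair n → ℝ) (e : Pair n) : 0 ≤ pA b x e :=
  sum_nonneg fun _ _ => by split_ifs <;> positivity

lemma pB_nonneg (b : ℝ) (x : Pair n → ℝ) (e : Pair n) : 0 ≤ pB b x e :=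
  sum_nonneg fun _ _ => by split_ifs <;> positivity

lemma pAB_pos (b : ℝ) (x : Pair n → ℝ) (e : Pair n) : 0 < pA b x e + pB b x e := by
  unfold pA pB
  rw [← sum_add_distrib]
  refine sum_pos (fun s _ => ?_) univ_nonempty
  split_ifs <;> simp <;> positivity

lemma fe_update (b : ℝ) (x : Pair n → ℝ) (e : Pair n) (t : ℝ) :
    fe b (Function.update x e t) = b⁻¹ * lg (pA b x e) (pB b x e) (b * (Real.sqrt n)⁻¹ * t) := by
  unfold fe lg
  congr 2
  unfold pA pB
  rw [sum_mul, sum_mul, ← sum_add_distrib]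
  refine sum_congr rfl fun s _ => ?_
  rw [skEnergy_update]
  rcases ch_cases s e with h | h
  · rw [if_pos h, if_pos h, h, zero_mul, add_zero, ← Real.exp_add]
    congr 1
    ring
  · have h' : ¬ (ch s e = 1) := by rw [h]; norm_num
    rw [if_neg h', if_neg h', h, zero_mul, zero_add, ← Real.exp_add]
    congr 1
    ring

/-- moment conditions -/
structure Mom (m : Measure ℝ) : Prop where
  i2 : Integrable (fun x : ℝ => x ^ 2) m
  i1 : Integrable (fun x : ℝ => x) m
  e1 : ∫ x : ℝ, x ∂m = 0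
  e2 : ∫ x : ℝ, x ^ 2 ∂m = 1

/-- the Lindeberg remainder -/
noncomputable def rem (m : Measure ℝ) (a : ℝ) : ℝ := ∫ t, t ^ 2 * min |a * t| 1 ∂m

lemma integrable_rem (m : Measure ℝ) (hm : Integrable (fun x : ℝ => x ^ 2) m) (a : ℝ) :
    Integrable (fun t : ℝ => t ^ 2 * min |a * t| 1) m := by
  refine hm.mono' ?_ ?_
  · exact Continuous.aestronglyMeasurable (by fun_prop)
  · refine Filter.Eventually.of_forall fun t => ?_
    have h1 : 0 ≤ min |a * t| 1 := le_min (abs_nonneg _) zero_le_one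
    have h2 : min |a * t| 1 ≤ 1 := min_le_right _ _
    rw [Real.norm_eq_abs, abs_of_nonneg (mul_nonneg (sq_nonneg t) h1)]
    exact mul_le_of_le_one_right (sq_nonneg t) h2

lemma rem_nonneg (m : Measure ℝ) (a : ℝ) : 0 ≤ rem m a :=
  integral_nonneg fun t => mul_nonneg (sq_nonneg t) (le_min (abs_nonneg _) zero_le_one)

lemma tendsto_rem (m : Measure ℝ) (hm : Integrable (fun x : ℝ => x ^ 2) m) {a : ℕ → ℝ}
    (ha : Tendsto a atTop (𝓝 0)) : Tendsto (fun n => rem m (a n)) atTop (𝓝 0) := by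
  have h0 : (0 : ℝ) = ∫ _t : ℝ, (0 : ℝ) ∂m := by simp
  unfold rem
  rw [h0]
  refine tendsto_integral_of_dominated_convergence (fun x : ℝ => x ^ 2)
    (fun n => (integrable_rem m hm (a n)).aestronglyMeasurable) hm (fun n => ?_) ?_
  · refine Filter.Eventually.of_forall fun t => ?_
    have h1 : 0 ≤ min |a n * t| 1 := le_min (abs_nonneg _) zero_le_one
    have h2 : min |a n * t| 1 ≤ 1 := min_le_right _ _
    rw [Real.norm_eq_abs, abs_of_nonneg (mul_nonneg (sq_nonneg t) h1)]
    exact mul_le_of_le_one_right (sq_nonneg t) h2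
  · refine Filter.Eventually.of_forall fun t => ?_
    have h1 : Tendsto (fun n => t ^ 2 * min |a n * t| 1) atTop
        (𝓝 (t ^ 2 * min |0 * t| 1)) :=
      ((((ha.mul_const t).abs).min tendsto_const_nhds).const_mul (t ^ 2))
    simpa using h1

lemma continuous_lg {A B : ℝ} (hA : 0 ≤ A) (hB : 0 ≤ B) (hAB : 0 < A + B) :
    Continuous (lg A B) :=
  continuous_iff_continuousAt.2 fun u => (hasDerivAt_lg hA hB hAB u).continuousAt

lemma one_var (m : Measure ℝ) [IsProbabilityMeasure m] (hm : Mom m) {A B : ℝ} (hA : 0 ≤ A)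
    (hB : 0 ≤ B) (hAB : 0 < A + B) {b k : ℝ} (hb : 0 < b) (hk : 0 ≤ k) :
    |∫ t, b⁻¹ * lg A B (b * k * t) ∂m
      - b⁻¹ * (lg A B 0 + (1 - mg A B 0 ^ 2) / 2 * (b * k) ^ 2)|
      ≤ 2 * b * k ^ 2 * rem m (b * k) := by
  set q : ℝ → ℝ := fun t => b⁻¹ * (lg A B 0 + mg A B 0 * (b * k * t)
    + (1 - mg A B 0 ^ 2) / 2 * (b * k * t) ^ 2) with hq
  have iq : Integrable q m := by
    refine Integrable.const_mul ?_ _
    refine ((integrable_const _).add ((hm.i1.const_mul (b * k)).const_mul _)).add ?_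
    have := (hm.i2.const_mul ((b * k) ^ 2)).const_mul ((1 - mg A B 0 ^ 2) / 2)
    refine this.congr (Filter.Eventually.of_forall fun t => ?_)
    simp only
    ring
  have hrem : ∀ t, |b⁻¹ * lg A B (b * k * t) - q t|
      ≤ 2 * b * k ^ 2 * (t ^ 2 * min |b * k * t| 1) := by
    intro t
    have h1 := lg_taylor_min hA hB hAB (b * k * t)
    have h2 : b⁻¹ * lg A B (b * k * t) - q t = b⁻¹ * (lg A B (b * k * t) - (lg A B 0
        + mg A B 0 * (b * k * t) + (1 - mg A B 0 ^ 2) / 2 * (b * k * t) ^ 2)) := by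
      simp only [hq]; ring
    have hb0 : 0 ≤ b⁻¹ := by positivity
    rw [h2, abs_mul, abs_of_nonneg hb0]
    refine (mul_le_mul_of_nonneg_left h1 hb0).trans (le_of_eq ?_)
    field_simp
  have ir : Integrable (fun t => b⁻¹ * lg A B (b * k * t) - q t) m := by
    refine ((integrable_rem m hm.i2 (b * k)).const_mul (2 * b * k ^ 2)).mono' ?_ ?_
    · have hc := continuous_lg hA hB hAB
      refine Continuous.aestronglyMeasurable ?_
      simp only [hq]
      fun_prop
    · exact Filter.Eventually.of_forall fun t => by rw [Real.norm_eq_abs]; exact hrem t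
  have hqi : ∫ t, q t ∂m = b⁻¹ * (lg A B 0 + (1 - mg A B 0 ^ 2) / 2 * (b * k) ^ 2) := by
    simp only [hq]
    rw [integral_const_mul]
    congr 1
    have i2 : Integrable (fun t : ℝ => (1 - mg A B 0 ^ 2) / 2 * (b * k * t) ^ 2) m := by
      have := (hm.i2.const_mul ((b * k) ^ 2)).const_mul ((1 - mg A B 0 ^ 2) / 2)
      refine this.congr (Filter.Eventually.of_forall fun t => ?_)
      simp only
      ring
    have i1 : Integrable (fun t : ℝ => mg A B 0 * (b * k * t)) m :=
      (hm.i1.const_mul (b * k)).const_mul _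
    have i0 : Integrable (fun t : ℝ => lg A B 0 + mg A B 0 * (b * k * t)) m :=
      (integrable_const _).add i1
    rw [integral_add i0 i2, integral_add (integrable_const _) i1, integral_const_mul,
      integral_const_mul, hm.e1, integral_const_mul]
    simp_rw [mul_pow]
    rw [integral_const_mul, hm.e2]
    simp
  have hs : ∫ t, b⁻¹ * lg A B (b * k * t) ∂m
      - b⁻¹ * (lg A B 0 + (1 - mg A B 0 ^ 2) / 2 * (b * k) ^ 2)
      = ∫ t, (b⁻¹ * lg A B (b * k * t) - q t) ∂m := by
    have e1 : ∫ t, b⁻¹ * lg A B (b * k * t) ∂m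
        = ∫ t, (b⁻¹ * lg A B (b * k * t) - q t) ∂m + ∫ t, q t ∂m := by
      rw [← integral_add ir iq]
      congr 1
      funext t
      ring
    rw [e1, hqi]
    ring
  rw [hs]
  refine (abs_integral_le_integral_abs).trans ?_
  unfold rem
  rw [← integral_const_mul]
  exact integral_mono ir.abs ((integrable_rem m hm.i2 (b * k)).const_mul _) hrem

lemma measurable_skE (s : Conf n) : Measurable fun x : Pair n → ℝ => skEnergy x s := by
  unfold skEnergy
  fun_prop

lemma measurable_sup : Measurable fun x : Pair n → ℝ => ⨆ s : Conf n, skEnergy x s :=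
  Measurable.iSup fun s => measurable_skE s

lemma measurable_fe (b : ℝ) : Measurable fun x : Pair n → ℝ => fe b x := by
  unfold fe
  refine Measurable.const_mul ?_ _
  refine Real.measurable_log.comp ?_
  refine Finset.measurable_fun_sum _ fun s _ => ?_
  exact Real.measurable_exp.comp ((measurable_skE s).const_mul b)

lemma abs_fe_le {b : ℝ} (hb : 0 < b) (x : Pair n → ℝ) :
    |fe b x| ≤ ((Real.sqrt n)⁻¹ + b⁻¹ * (n * Real.log 2)) * (1 + ∑ e, |x e|) := by
  have h1 := sup_le_fe hb x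
  have h2 := fe_le_sup hb x
  have h3 := abs_le.1 (abs_sup_le x)
  have h4 : 0 ≤ ∑ e, |x e| := sum_nonneg fun _ _ => abs_nonneg _
  have h5 : (0 : ℝ) ≤ (Real.sqrt n)⁻¹ := by positivity
  have h6 : 0 ≤ b⁻¹ * (n * Real.log 2) := by
    have := Real.log_nonneg (x := 2) (by norm_num)
    positivity
  have h7 : 0 ≤ (b⁻¹ * (n * Real.log 2)) * ∑ e, |x e| := mul_nonneg h6 h4
  have h8 : 0 ≤ (Real.sqrt n)⁻¹ * ∑ e, |x e| := mul_nonneg h5 h4
  rw [abs_le]
  constructor <;> nlinarith

/-- comparison of two coupling laws at size `n` -/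
theorem compare (μ ν : Measure ℝ) [IsProbabilityMeasure μ] [IsProbabilityMeasure ν]
    (hμ : Mom μ) (hν : Mom ν) {b : ℝ} (hb : 0 < b) :
    |∫ x, (⨆ s : Conf n, skEnergy x s) ∂(Measure.pi fun _ : Pair n => μ)
      - ∫ x, (⨆ s : Conf n, skEnergy x s) ∂(Measure.pi fun _ : Pair n => ν)|
      ≤ b⁻¹ * (n * Real.log 2) + Fintype.card (Pair n) *
        (2 * b * (Real.sqrt n)⁻¹ ^ 2 *
          (rem μ (b * (Real.sqrt n)⁻¹) + rem ν (b * (Real.sqrt n)⁻¹))) := by
  have hL := lindeberg μ ν hμ.i1 hν.i1 (F := fun x : Pair n → ℝ => fe b x) (measurable_fe b)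
    (fun x => abs_fe_le hb x)
    (δ := 2 * b * (Real.sqrt n)⁻¹ ^ 2 *
      (rem μ (b * (Real.sqrt n)⁻¹) + rem ν (b * (Real.sqrt n)⁻¹))) (by
      intro x e
      simp_rw [fe_update]
      have h1 := one_var μ hμ (pA_nonneg b x e) (pB_nonneg b x e) (pAB_pos b x e) hb
        (k := (Real.sqrt n)⁻¹) (by positivity)
      have h2 := one_var ν hν (pA_nonneg b x e) (pB_nonneg b x e) (pAB_pos b x e) hb
        (k := (Real.sqrt n)⁻¹) (by positivity)
      rw [abs_le] at h1 h2 ⊢
      constructor <;> nlinarith [h1.1, h1.2, h2.1, h2.2])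
  have hfi : ∀ (m : Measure ℝ) [IsProbabilityMeasure m], Mom m →
      Integrable (fun x : Pair n → ℝ => fe b x) (Measure.pi fun _ : Pair n => m) := by
    intro m _ hm
    exact integrable_of_lin (fun _ => m) (fun _ => hm.i1) (measurable_fe b)
      (fun x => abs_fe_le hb x)
  have hsi : ∀ (m : Measure ℝ) [IsProbabilityMeasure m], Mom m →
      Integrable (fun x : Pair n → ℝ => ⨆ s : Conf n, skEnergy x s)
        (Measure.pi fun _ : Pair n => m) := by
    intro m _ hm
    refine integrable_of_lin (C := (Real.sqrt n)⁻¹) (fun _ => m) (fun _ => hm.i1) measurable_sup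
      (fun x => ?_)
    refine (abs_sup_le x).trans ?_
    have h5 : (0 : ℝ) ≤ (Real.sqrt n)⁻¹ := by positivity
    apply mul_le_mul_of_nonneg_left _ h5
    linarith
  have hlo : ∀ (m : Measure ℝ) [IsProbabilityMeasure m], Mom m →
      ∫ x, (⨆ s : Conf n, skEnergy x s) ∂(Measure.pi fun _ : Pair n => m)
        ≤ ∫ x, fe b x ∂(Measure.pi fun _ : Pair n => m) := by
    intro m _ hm
    exact integral_mono (hsi m hm) (hfi m hm) (fun x => sup_le_fe hb x)
  have hhi : ∀ (m : Measure ℝ) [IsProbabilityMeasure m], Mom m →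
      ∫ x, fe b x ∂(Measure.pi fun _ : Pair n => m)
        ≤ ∫ x, (⨆ s : Conf n, skEnergy x s) ∂(Measure.pi fun _ : Pair n => m)
          + b⁻¹ * (n * Real.log 2) := by
    intro m _ hm
    have h1 := integral_mono (hfi m hm) ((hsi m hm).add (integrable_const _))
      (fun x => fe_le_sup hb x)
    refine h1.trans (le_of_eq ?_)
    have := integral_add (hsi m hm) (integrable_const (b⁻¹ * (n * Real.log 2)))
    simp only [Pi.add_apply]
    rw [this]
    simp
  have a1 := hlo μ hμ
  have a2 := hhi μ hμ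
  have a3 := hlo ν hν
  have a4 := hhi ν hν
  rw [abs_le] at hL ⊢
  constructor <;> linarith [hL.1, hL.2]

lemma mom_gauss : Mom (gaussianReal 0 1) := by
  have h3 : MemLp id 3 (gaussianReal 0 1) := by
    have := memLp_id_gaussianReal (μ := 0) (v := 1) 3
    simpa using this
  have h2 : MemLp id 2 (gaussianReal 0 1) := h3.mono_exponent (by norm_num)
  have e1 : ∫ x : ℝ, x ∂(gaussianReal 0 1) = 0 := by
    have := integral_id_gaussianReal (μ := 0) (v := 1)
    simpa using this
  refine ⟨?_, ?_, e1, ?_⟩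
  · have := h2.integrable_sq
    simpa using this
  · exact h2.integrable (by norm_num)
  · have hv := variance_id_gaussianReal (μ := 0) (v := 1)
    rw [variance_of_integral_eq_zero measurable_id.aemeasurable (by simpa using e1)] at hv
    simpa using hv

/-- **Universality of the ground state energy.** -/
theorem ground_tendsto {P : ℝ} (hP : Tendsto groundValue atTop (𝓝 P)) (ν : Measure ℝ)
    [IsProbabilityMeasure ν] (hν : Mom ν) :
    Tendsto (fun n : ℕ => (n : ℝ)⁻¹ *
      ∫ J, (⨆ s : Conf n, skEnergy J s) ∂(Measure.pi fun _ : Pair n => ν)) atTop (𝓝 P) := by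
  set R : ℝ → ℝ := fun a => rem ν a + rem (gaussianReal 0 1) a with hR
  have hR0 : ∀ a, 0 ≤ R a := fun a => add_nonneg (rem_nonneg _ _) (rem_nonneg _ _)
  have hD : ∀ b : ℝ, 0 < b → ∀ n : ℕ, 0 < n → |(n : ℝ)⁻¹ *
      ∫ J, (⨆ s : Conf n, skEnergy J s) ∂(Measure.pi fun _ : Pair n => ν) - groundValue n|
      ≤ b⁻¹ * Real.log 2 + 2 * b * R (b * (Real.sqrt n)⁻¹) := by
    intro b hb n hn
    have hn' : (0 : ℝ) < n := by exact_mod_cast hn
    have h1 := compare (n := n) ν (gaussianReal 0 1) hν mom_gauss hb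
    have hc : (Fintype.card (Pair n) : ℝ) ≤ (n : ℝ) ^ 2 := by
      have h2 : Fintype.card (Pair n) ≤ Fintype.card (Fin n × Fin n) := Fintype.card_subtype_le _
      rw [Fintype.card_prod, Fintype.card_fin] at h2
      have : ((Fintype.card (Pair n) : ℕ) : ℝ) ≤ ((n * n : ℕ) : ℝ) := by exact_mod_cast h2
      push_cast at this
      nlinarith
    unfold groundValue couplingLaw
    rw [← mul_sub, abs_mul, abs_of_pos (by positivity : (0 : ℝ) < (n : ℝ)⁻¹)]
    have hk : (Real.sqrt n)⁻¹ ^ 2 = (n : ℝ)⁻¹ := by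
      rw [inv_pow, Real.sq_sqrt hn'.le]
    have hR1 := hR0 (b * (Real.sqrt n)⁻¹)
    have h3 : (Fintype.card (Pair n) : ℝ) * (2 * b * (Real.sqrt n)⁻¹ ^ 2 *
          R (b * (Real.sqrt n)⁻¹))
        ≤ (n : ℝ) ^ 2 * (2 * b * (Real.sqrt n)⁻¹ ^ 2 * R (b * (Real.sqrt n)⁻¹)) := by
      apply mul_le_mul_of_nonneg_right hc
      positivity
    have h4 : (n : ℝ)⁻¹ * ((n : ℝ) ^ 2 * (2 * b * (Real.sqrt n)⁻¹ ^ 2 *
          R (b * (Real.sqrt n)⁻¹)))
        = 2 * b * R (b * (Real.sqrt n)⁻¹) := by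
      rw [hk]
      field_simp
    calc (n : ℝ)⁻¹ * |∫ J, (⨆ s : Conf n, skEnergy J s) ∂(Measure.pi fun _ : Pair n => ν)
          - ∫ J, (⨆ s : Conf n, skEnergy J s) ∂(Measure.pi fun _ : Pair n => gaussianReal 0 1)|
        ≤ (n : ℝ)⁻¹ * (b⁻¹ * (n * Real.log 2) +
          (n : ℝ) ^ 2 * (2 * b * (Real.sqrt n)⁻¹ ^ 2 * R (b * (Real.sqrt n)⁻¹))) := by
          apply mul_le_mul_of_nonneg_left _ (by positivity)
          exact h1.trans (by
            have h3' := h3
            simp only [hR] at h3' ⊢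
            linarith)
      _ = b⁻¹ * Real.log 2 + 2 * b * R (b * (Real.sqrt n)⁻¹) := by
          rw [mul_add, h4]
          congr 1
          field_simp
  have hdiff : Tendsto (fun n : ℕ => (n : ℝ)⁻¹ *
      ∫ J, (⨆ s : Conf n, skEnergy J s) ∂(Measure.pi fun _ : Pair n => ν) - groundValue n)
      atTop (𝓝 0) := by
    rw [Metric.tendsto_atTop]
    intro ε hε
    have hl : 0 < Real.log 2 := Real.log_pos (by norm_num)
    set b : ℝ := 2 * Real.log 2 / ε with hb
    have hb0 : 0 < b := by positivity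
    have hb1 : b⁻¹ * Real.log 2 = ε / 2 := by
      rw [hb]; field_simp
    have hz : Tendsto (fun n : ℕ => 2 * b * R (b * (Real.sqrt n)⁻¹)) atTop (𝓝 0) := by
      have h5 : Tendsto (fun n : ℕ => b * (Real.sqrt (n : ℝ))⁻¹) atTop (𝓝 0) := by
        have := (tendsto_inv_atTop_zero.comp
          (Real.tendsto_sqrt_atTop.comp tendsto_natCast_atTop_atTop)).const_mul b
        simpa using this
      have h6 := (tendsto_rem ν hν.i2 h5).add (tendsto_rem (gaussianReal 0 1) mom_gauss.i2 h5)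
      have := h6.const_mul (2 * b)
      simpa [hR] using this
    have hev := (hz.eventually_lt_const (half_pos hε)).and (eventually_gt_atTop 0)
    obtain ⟨N, hN⟩ := eventually_atTop.1 hev
    refine ⟨N, fun n hn => ?_⟩
    obtain ⟨h6, h7⟩ := hN n hn
    rw [Real.dist_eq, sub_zero]
    have h8 := hD b hb0 n h7
    rw [hb1] at h8
    linarith
  have := hdiff.add hP
  rw [zero_add] at this
  refine this.congr fun n => ?_
  ring

end Vale.Agent.P367.H84.U
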