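import Vale.Agent.P367.Bd3.B5
import Vale.Agent.P367.H84.Defs

/-!
# P367 : sampling near-optimal strings, diverging depth, total phase (helper84)
-/

open MeasureTheory ProbabilityTheory Filter Topology Matrix

namespace Vale.Agent.P367.H84

open Vale.Agent.P367.Gap Vale.Agent.P367.Lim

/-! ### padding by layers with zero angles -/

/-- extension by zero angles -/
def pad {p : ℕ} (q : ℕ) (γ : Fin p → ℝ) : Fin q → ℝ := fun k => if h : (k : ℕ) < p then γ ⟨k, h⟩ else 0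

lemma pad_self {p : ℕ} (γ : Fin p → ℝ) : pad p γ = γ := by
  funext k
  unfold pad
  rw [dif_pos k.2]

lemma pad_castSucc {p q : ℕ} (γ : Fin p → ℝ) :
    (fun k : Fin q => pad (q + 1) γ k.castSucc) = pad q γ := rfl

lemma pad_last {p q : ℕ} (h : p ≤ q) (γ : Fin p → ℝ) : pad (q + 1) γ (Fin.last q) = 0 := by
  unfold pad
  rw [dif_neg (by simp; omega)]

lemma state_pad {n : ℕ} (J : Pair n → ℝ) {p : ℕ} (γ β : Fin p → ℝ) {q : ℕ} (h : p ≤ q) :
    qaoaState J q (pad q γ) (pad q β) = qaoaState J p γ β := by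
  induction q, h using Nat.le_induction with
  | base => rw [pad_self, pad_self]
  | succ q hq ih =>
    rw [qaoaState, pad_last hq, pad_last hq, pad_castSucc, pad_castSucc, ih]
    simp

lemma meanErr_pad {n p : ℕ} (γ β : Fin p → ℝ) {q : ℕ} (h : p ≤ q) :
    meanErr n q (pad q γ) (pad q β) = meanErr n p γ β := by
  unfold meanErr
  simp only [state_pad _ _ _ h]

lemma phase_pad {p : ℕ} (γ : Fin p → ℝ) {q : ℕ} (h : p ≤ q) :
    ∑ k, |pad q γ k| = ∑ k, |γ k| := by
  induction q, h using Nat.le_induction with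
  | base => rw [pad_self]
  | succ q hq ih =>
    rw [Fin.sum_univ_castSucc, pad_last hq, abs_zero, add_zero, ← ih]
    rfl

/-! ### the error -/

variable {n : ℕ}

lemma int_mean (p : ℕ) (γ β : Fin p → ℝ) :
    Integrable (fun J : Pair n → ℝ => qaoaMean J p γ β) (couplingLaw n) := by
  have h1 : (fun J : Pair n → ℝ => qaoaMean J p γ β)
      = fun J => ∑ s, ‖qaoaState J p γ β s‖ ^ 2 * skEnergy J s := by
    funext J; exact qaoaMean_eq J p γ β
  rw [h1]
  apply integrable_finsetSum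
  intro s _
  refine (integrable_energy s).abs.mono' ?_ (Filter.Eventually.of_forall fun J => ?_)
  · apply Measurable.aestronglyMeasurable
    exact ((measurable_qaoaState p γ β s).norm.pow_const 2).mul (continuous_skEnergy s).measurable
  · rw [norm_mul, Real.norm_eq_abs, Real.norm_eq_abs, abs_of_nonneg (by positivity)]
    calc ‖qaoaState J p γ β s‖ ^ 2 * |skEnergy J s| ≤ 1 * |skEnergy J s| :=
          mul_le_mul_of_nonneg_right (state_sq_le J p γ β s) (abs_nonneg _)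
      _ = _ := one_mul _

lemma int_err (p : ℕ) (γ β : Fin p → ℝ) :
    Integrable (fun J : Pair n → ℝ => ∑ z : Conf n, ‖qaoaState J p γ β z‖ ^ 2 *
      |(n : ℝ)⁻¹ * skEnergy J z - Pstar|) (couplingLaw n) := by
  apply integrable_finsetSum
  intro s _
  have hi : Integrable (fun J : Pair n → ℝ => (n : ℝ)⁻¹ * skEnergy J s - Pstar)
      (couplingLaw n) := ((integrable_energy s).const_mul _).sub (integrable_const _)
  refine hi.abs.mono' ?_ (Filter.Eventually.of_forall fun J => ?_)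
  · apply Measurable.aestronglyMeasurable
    refine ((measurable_qaoaState p γ β s).norm.pow_const 2).mul ?_
    exact ((((continuous_skEnergy s).measurable).const_mul _).sub measurable_const).abs
  · rw [norm_mul, Real.norm_eq_abs, Real.norm_eq_abs, abs_abs, abs_of_nonneg (by positivity)]
    calc ‖qaoaState J p γ β s‖ ^ 2 * |(n : ℝ)⁻¹ * skEnergy J s - Pstar|
        ≤ 1 * |(n : ℝ)⁻¹ * skEnergy J s - Pstar| :=
          mul_le_mul_of_nonneg_right (state_sq_le J p γ β s) (abs_nonneg _)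
      _ = _ := one_mul _

lemma int_sup' : Integrable (fun J : Pair n → ℝ => ⨆ s : Conf n, skEnergy J s)
    (couplingLaw n) :=
  integrable_iSup (fun (s : Conf n) (J : Pair n → ℝ) => skEnergy J s)
    (fun s => integrable_energy s) (fun s => (continuous_skEnergy s).measurable)

lemma meanErr_nonneg (p : ℕ) (γ β : Fin p → ℝ) : 0 ≤ meanErr n p γ β :=
  integral_nonneg fun J => Finset.sum_nonneg fun z _ => by positivity

/-- pointwise bound of the error -/
lemma err_le (J : Pair n → ℝ) (p : ℕ) (γ β : Fin p → ℝ) :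
    ∑ z : Conf n, ‖qaoaState J p γ β z‖ ^ 2 * |(n : ℝ)⁻¹ * skEnergy J z - Pstar| ≤
      ((n : ℝ)⁻¹ * (⨆ s : Conf n, skEnergy J s) - (n : ℝ)⁻¹ * qaoaMean J p γ β) +
      (|(n : ℝ)⁻¹ * (⨆ s : Conf n, skEnergy J s) - groundValue n| + |groundValue n - Pstar|) := by
  have h1 := norm_qaoaState J p γ β
  rw [qaoaMean_eq]
  have h2 : ((n : ℝ)⁻¹ * (⨆ s : Conf n, skEnergy J s) -
      (n : ℝ)⁻¹ * ∑ s, ‖qaoaState J p γ β s‖ ^ 2 * skEnergy J s) +
      (|(n : ℝ)⁻¹ * (⨆ s : Conf n, skEnergy J s) - groundValue n| + |groundValue n - Pstar|) =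
      ∑ z : Conf n, ‖qaoaState J p γ β z‖ ^ 2 * ((n : ℝ)⁻¹ * (⨆ s : Conf n, skEnergy J s) -
        (n : ℝ)⁻¹ * skEnergy J z +
      (|(n : ℝ)⁻¹ * (⨆ s : Conf n, skEnergy J s) - groundValue n| + |groundValue n - Pstar|)) := by
    simp only [mul_add, mul_sub, Finset.sum_add_distrib, Finset.sum_sub_distrib]
    simp only [← Finset.sum_mul, h1, one_mul]
    rw [Finset.mul_sum]
    congr 2
    refine Finset.sum_congr rfl fun s _ => ?_
    ring
  rw [h2]
  refine Finset.sum_le_sum fun z _ => ?_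
  refine mul_le_mul_of_nonneg_left ?_ (by positivity)
  have hn : (0 : ℝ) ≤ (n : ℝ)⁻¹ := by positivity
  have h3 : skEnergy J z ≤ ⨆ s : Conf n, skEnergy J s :=
    le_ciSup (Set.finite_range fun s : Conf n => skEnergy J s).bddAbove z
  have h4 : (n : ℝ)⁻¹ * skEnergy J z ≤ (n : ℝ)⁻¹ * ⨆ s : Conf n, skEnergy J s :=
    mul_le_mul_of_nonneg_left h3 hn
  have h5 := le_abs_self ((n : ℝ)⁻¹ * (⨆ s : Conf n, skEnergy J s) - groundValue n)
  have h6 := neg_abs_le ((n : ℝ)⁻¹ * (⨆ s : Conf n, skEnergy J s) - groundValue n)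
  have h7 := le_abs_self (groundValue n - Pstar)
  have h8 := neg_abs_le (groundValue n - Pstar)
  rw [abs_le]
  constructor <;> linarith

lemma meanErr_le (p : ℕ) (γ β : Fin p → ℝ) :
    meanErr n p γ β ≤ (groundValue n - qaoaValue n p γ β) +
      (∫ J, |(n : ℝ)⁻¹ * (⨆ s : Conf n, skEnergy J s) - groundValue n| ∂(couplingLaw n) +
        |groundValue n - Pstar|) := by
  have i1 : Integrable (fun J : Pair n → ℝ => (n : ℝ)⁻¹ * (⨆ s : Conf n, skEnergy J s))
    (couplingLaw n) := int_sup'.const_mul _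
  have i2 : Integrable (fun J : Pair n → ℝ => (n : ℝ)⁻¹ * qaoaMean J p γ β) (couplingLaw n) :=
    (int_mean p γ β).const_mul _
  have i3 : Integrable (fun J : Pair n → ℝ =>
      |(n : ℝ)⁻¹ * (⨆ s : Conf n, skEnergy J s) - groundValue n|) (couplingLaw n) :=
    (i1.sub (integrable_const _)).abs
  have h1 : meanErr n p γ β ≤ ∫ J, (((n : ℝ)⁻¹ * (⨆ s : Conf n, skEnergy J s) -
      (n : ℝ)⁻¹ * qaoaMean J p γ β) +
      (|(n : ℝ)⁻¹ * (⨆ s : Conf n, skEnergy J s) - groundValue n| + |groundValue n - Pstar|))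
      ∂(couplingLaw n) := by
    unfold meanErr
    exact integral_mono (int_err p γ β) ((i1.sub i2).add (i3.add (integrable_const _)))
      fun J => err_le J p γ β
  have e1 : ∫ J, (((n : ℝ)⁻¹ * (⨆ s : Conf n, skEnergy J s) -
      (n : ℝ)⁻¹ * qaoaMean J p γ β) +
      (|(n : ℝ)⁻¹ * (⨆ s : Conf n, skEnergy J s) - groundValue n| + |groundValue n - Pstar|))
      ∂(couplingLaw n) = ∫ J, ((n : ℝ)⁻¹ * (⨆ s : Conf n, skEnergy J s) -
      (n : ℝ)⁻¹ * qaoaMean J p γ β) ∂(couplingLaw n) +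
      ∫ J, (|(n : ℝ)⁻¹ * (⨆ s : Conf n, skEnergy J s) - groundValue n| +
        |groundValue n - Pstar|) ∂(couplingLaw n) :=
    integral_add (i1.sub i2) (i3.add (integrable_const _))
  have e2 : ∫ J, ((n : ℝ)⁻¹ * (⨆ s : Conf n, skEnergy J s) -
      (n : ℝ)⁻¹ * qaoaMean J p γ β) ∂(couplingLaw n) = groundValue n - qaoaValue n p γ β := by
    rw [integral_sub i1 i2, integral_const_mul, integral_const_mul]
    rfl
  have e3 : ∫ J, (|(n : ℝ)⁻¹ * (⨆ s : Conf n, skEnergy J s) - groundValue n| +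
        |groundValue n - Pstar|) ∂(couplingLaw n) =
      ∫ J, |(n : ℝ)⁻¹ * (⨆ s : Conf n, skEnergy J s) - groundValue n| ∂(couplingLaw n) +
      |groundValue n - Pstar| := by
    rw [integral_add i3 (integrable_const _), integral_const]
    simp
  rw [e1, e2, e3] at h1
  exact h1

/-! ### constant depth -/

/-- concentration of the ground state energy -/
def Conc : Prop := ∀ n : ℕ, 1 ≤ n →
  ∫ J, |(n : ℝ)⁻¹ * (⨆ s : Conf n, skEnergy J s) - groundValue n| ∂(couplingLaw n) ≤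
    (Real.sqrt n)⁻¹

/-- the limit-free form of `Q_p → P_*` -/
def Six : Prop := ∀ ε : ℝ, 0 < ε → ∃ (p : ℕ) (γ β : Fin p → ℝ),
  ∀ᶠ n in atTop, groundValue n - ε ≤ qaoaValue n p γ β

theorem meanErr_small (hg : Tendsto groundValue atTop (𝓝 Pstar)) (hc : Conc) (h6 : Six) {ε : ℝ}
    (hε : 0 < ε) :
    ∃ (p : ℕ) (γ β : Fin p → ℝ), ∀ᶠ n in atTop, meanErr n p γ β ≤ ε := by
  obtain ⟨p, γ, β, h⟩ := h6 (ε / 3) (by linarith)
  refine ⟨p, γ, β, ?_⟩
  have t1 : Tendsto (fun n : ℕ => (Real.sqrt n)⁻¹) atTop (𝓝 0) :=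
    tendsto_inv_atTop_zero.comp
      (Real.tendsto_sqrt_atTop.comp tendsto_natCast_atTop_atTop)
  have t2 : Tendsto (fun n : ℕ => |groundValue n - Pstar|) atTop (𝓝 0) := by
    have h2 := (hg.sub_const Pstar).abs
    rwa [sub_self, abs_zero] at h2
  filter_upwards [h, eventually_ge_atTop 1, t1.eventually_le_const (by linarith : 0 < ε / 3),
    t2.eventually_le_const (by linarith : 0 < ε / 3)] with n h1 h2 h3 h4
  have h5 := meanErr_le (n := n) p γ β
  have h6 := hc n h2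
  linarith

/-! ### diverging depth and total phase -/

/-- the admissible angles: total phase at most `T` -/
def Adm (p : ℕ) (T : ℝ) : Set ((Fin p → ℝ) × (Fin p → ℝ)) :=
  {a | ∑ k, (|a.1 k| + |a.2 k|) ≤ max T 0}

lemma zero_adm (p : ℕ) (T : ℝ) : (0 : (Fin p → ℝ) × (Fin p → ℝ)) ∈ Adm p T := by
  unfold Adm
  simp

theorem diverging (hg : Tendsto groundValue atTop (𝓝 Pstar)) (hc : Conc) (h6 : Six) (p : ℕ → ℕ)
    (T : ℕ → ℝ) (hp : Tendsto p atTop atTop) (hT : Tendsto T atTop atTop) :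
    ∃ γ β : (n : ℕ) → Fin (p n) → ℝ,
      (∀ᶠ n in atTop, ∑ k, (|γ n k| + |β n k|) ≤ T n) ∧
      Tendsto (fun n => meanErr n (p n) (γ n) (β n)) atTop (𝓝 0) := by
  haveI : ∀ n, Nonempty (Adm (p n) (T n)) := fun n => ⟨⟨0, zero_adm _ _⟩⟩
  set I : ℕ → ℝ := fun n => ⨅ a : Adm (p n) (T n), meanErr n (p n) a.1.1 a.1.2 with hI
  have hb : ∀ n, BddBelow (Set.range fun a : Adm (p n) (T n) =>
      meanErr n (p n) a.1.1 a.1.2) := by
    intro n
    refine ⟨0, ?_⟩
    rintro _ ⟨a, rfl⟩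
    exact meanErr_nonneg _ _ _
  have h1 : ∀ n, ∃ a : Adm (p n) (T n),
      meanErr n (p n) a.1.1 a.1.2 < I n + ((n : ℝ) + 1)⁻¹ := by
    intro n
    have : I n < I n + ((n : ℝ) + 1)⁻¹ := by
      have : (0 : ℝ) < ((n : ℝ) + 1)⁻¹ := by positivity
      linarith
    exact exists_lt_of_ciInf_lt this
  choose a ha using h1
  refine ⟨fun n => (a n).1.1, fun n => (a n).1.2, ?_, ?_⟩
  · filter_upwards [hT.eventually_ge_atTop 0] with n hn
    have := (a n).2
    unfold Adm at this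
    simpa [max_eq_left hn] using this
  rw [Metric.tendsto_atTop']
  intro ε hε
  obtain ⟨q, γ, β, h⟩ := meanErr_small hg hc h6 (half_pos hε)
  have t1 : Tendsto (fun n : ℕ => ((n : ℝ) + 1)⁻¹) atTop (𝓝 0) := by
    refine tendsto_inv_atTop_zero.comp ?_
    exact tendsto_atTop_add_const_right _ _ tendsto_natCast_atTop_atTop
  have := (h.and ((hp.eventually_ge_atTop q).and
    (t1.eventually_lt_const (half_pos hε)))).and
    (hT.eventually_ge_atTop (∑ k, |γ k| + ∑ k, |β k|))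
  obtain ⟨N, hN⟩ := eventually_atTop.1 this
  refine ⟨N, fun n hn => ?_⟩
  obtain ⟨⟨h2, h3, h4⟩, h8⟩ := hN n hn.le
  have hadm : (pad (p n) γ, pad (p n) β) ∈ Adm (p n) (T n) := by
    unfold Adm
    simp only [Set.mem_ofPred_eq]
    rw [Finset.sum_add_distrib, phase_pad γ h3, phase_pad β h3]
    exact h8.trans (le_max_left _ _)
  have h5 : I n ≤ ε / 2 := by
    refine (ciInf_le (hb n) ⟨(pad (p n) γ, pad (p n) β), hadm⟩).trans ?_
    simp only
    rw [meanErr_pad γ β h3]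
    exact h2
  have h6' := ha n
  have h7 := meanErr_nonneg (n := n) (p n) (a n).1.1 (a n).1.2
  rw [Real.dist_eq, sub_zero, abs_of_nonneg h7]
  linarith

/-! ### high probability -/

lemma near_add (J : Pair n → ℝ) (p : ℕ) (γ β : Fin p → ℝ) {ε : ℝ} (hε : 0 < ε) :
    1 - nearProb J p γ β ε ≤ ε⁻¹ * ∑ z : Conf n, ‖qaoaState J p γ β z‖ ^ 2 *
      |(n : ℝ)⁻¹ * skEnergy J z - Pstar| := by
  rw [← norm_qaoaState J p γ β]
  unfold nearProb
  rw [← Finset.sum_sub_distrib, Finset.mul_sum]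
  refine Finset.sum_le_sum fun z _ => ?_
  by_cases h : |(n : ℝ)⁻¹ * skEnergy J z - Pstar| ≤ ε
  · rw [Set.indicator_of_mem (by exact h), sub_self]
    positivity
  · rw [Set.indicator_of_notMem (by exact h), sub_zero]
    push Not at h
    have h1 : 1 ≤ ε⁻¹ * |(n : ℝ)⁻¹ * skEnergy J z - Pstar| := by
      rw [inv_mul_eq_div, le_div_iff₀ hε]
      linarith
    calc ‖qaoaState J p γ β z‖ ^ 2 = ‖qaoaState J p γ β z‖ ^ 2 * 1 := by ring
      _ ≤ ‖qaoaState J p γ β z‖ ^ 2 * (ε⁻¹ * |(n : ℝ)⁻¹ * skEnergy J z - Pstar|) := by gcongr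
      _ = _ := by ring

lemma prob_of_meanErr (p : ℕ) (γ β : Fin p → ℝ) {ε : ℝ} (hε : 0 < ε)
    (h : meanErr n p γ β ≤ ε ^ 3) :
    1 - ε ≤ (couplingLaw n).real {J | 1 - ε ≤ nearProb J p γ β ε} := by
  set F : (Pair n → ℝ) → ℝ := fun J => ∑ z : Conf n, ‖qaoaState J p γ β z‖ ^ 2 *
      |(n : ℝ)⁻¹ * skEnergy J z - Pstar| with hF
  have hF0 : 0 ≤ᵐ[couplingLaw n] F :=
    Filter.Eventually.of_forall fun J => Finset.sum_nonneg fun z _ => by positivity
  have h1 := mul_meas_ge_le_integral_of_nonneg hF0 (int_err p γ β) (ε ^ 2)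
  have h2 : (couplingLaw n).real {J | ε ^ 2 ≤ F J} ≤ ε := by
    have h3 : ε ^ 2 * (couplingLaw n).real {J | ε ^ 2 ≤ F J} ≤ ε ^ 2 * ε := by
      refine h1.trans (h.trans (le_of_eq ?_))
      ring
    exact le_of_mul_le_mul_left h3 (by positivity)
  have h4 : {J | 1 - ε ≤ nearProb J p γ β ε}ᶜ ⊆ {J | ε ^ 2 ≤ F J} := by
    intro J hJ
    simp only [Set.mem_compl_iff, Set.mem_ofPred_eq, not_le] at hJ ⊢
    have h5 := near_add J p γ β hε
    have h6 : ε < ε⁻¹ * F J := by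
      refine lt_of_lt_of_le ?_ h5
      linarith
    rw [inv_mul_eq_div, lt_div_iff₀ hε] at h6
    rw [pow_two]
    exact h6.le
  have h5 : (couplingLaw n).real {J | 1 - ε ≤ nearProb J p γ β ε}ᶜ ≤ ε :=
    (measureReal_mono h4).trans h2
  have h6 : 1 ≤ (couplingLaw n).real {J | 1 - ε ≤ nearProb J p γ β ε} +
      (couplingLaw n).real {J | 1 - ε ≤ nearProb J p γ β ε}ᶜ := by
    have := measureReal_union_le (μ := couplingLaw n) {J | 1 - ε ≤ nearProb J p γ β ε}
      {J | 1 - ε ≤ nearProb J p γ β ε}ᶜ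
    rw [Set.union_compl_self] at this
    simpa using this
  linarith

theorem sampling (hg : Tendsto groundValue atTop (𝓝 Pstar)) (hc : Conc) (h6 : Six) (ε : ℝ) (hε : 0 < ε) :
    ∃ (p : ℕ) (γ β : Fin p → ℝ), ∀ᶠ n in atTop,
      1 - ε ≤ (couplingLaw n).real {J | 1 - ε ≤ nearProb J p γ β ε} := by
  obtain ⟨p, γ, β, h⟩ := meanErr_small hg hc h6 (pow_pos hε 3)
  refine ⟨p, γ, β, ?_⟩
  filter_upwards [h] with n hn
  exact prob_of_meanErr p γ β hε hn

/-! ### total phase -/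

theorem phase (n : ℕ) (hn : 2 ≤ n) (p : ℕ) (γ β : Fin p → ℝ) :
    qaoaValue n p γ β ≤ groundValue n - Real.exp (-(10 ^ 8 * (1 + ∑ k, |γ k|) ^ 2)) :=
  gap_finite _ n hn p γ β le_rfl

theorem phase_diverges (hg : Tendsto groundValue atTop (𝓝 Pstar)) (p : ℕ → ℕ) (γ β : (n : ℕ) → Fin (p n) → ℝ)
    (h : Tendsto (fun n => qaoaValue n (p n) (γ n) (β n)) atTop (𝓝 Pstar)) :
    Tendsto (fun n => ∑ k, |γ n k|) atTop atTop := by
  rw [tendsto_atTop]
  intro T
  by_contra hcon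
  have hf : ∃ᶠ n in atTop, ∑ k, |γ n k| < T := by
    intro h1
    apply hcon
    filter_upwards [h1] with n hn
    push Not at hn
    exact hn
  have h2 : Tendsto (fun n => groundValue n - qaoaValue n (p n) (γ n) (β n)) atTop (𝓝 0) := by
    have := hg.sub h
    rwa [sub_self] at this
  have hpos : 0 < Real.exp (-(10 ^ 8 * (1 + |T|) ^ 2)) := Real.exp_pos _
  have h3 := (h2.eventually_lt_const hpos).and (eventually_ge_atTop 2)
  obtain ⟨n, hn, hn1, hn2⟩ := (hf.and_eventually h3).exists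
  have h4 := gap_finite |T| n hn2 (p n) (γ n) (β n) (hn.le.trans (le_abs_self T))
  linarith

end Vale.Agent.P367.H84
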