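import Vale.Agent.P367.Bd3.B10

/-!
# P367 : universality in the disorder, path functionals with general pair kernels (helper84)
-/

set_option linter.all false

namespace Vale.Agent.P367.H84.U

open Finset ComplexConjugate MeasureTheory ProbabilityTheory Filter Topology
open Vale.Agent.P367.Gap Vale.Agent.P367.Lim

lemma prod_pair {n : ℕ} (f : Fin n → Fin n → ℂ) :
    ∏ e : Pair n, f e.1.1 e.1.2 = ∏ a, ∏ b, if a < b then f a b else 1 := by
  rw [← Fintype.prod_prod_type' (f := fun a b => if a < b then f a b else 1),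
    ← Finset.prod_filter]
  exact (Finset.prod_subtype (univ.filter (fun e : Fin n × Fin n => e.1 < e.2)) (by simp)
    (fun e => f e.1 e.2)).symm

/-- image of a pair, sorted -/
def srt {n n' : ℕ} (e : Fin n ≃ Fin n') (a : Pair n) : Pair n' :=
  if h : e a.1.1 < e a.1.2 then ⟨(e a.1.1, e a.1.2), h⟩
  else ⟨(e a.1.2, e a.1.1), lt_of_le_of_ne (not_lt.1 h)
    (fun h' => (ne_of_lt a.2) (e.injective h'.symm))⟩

lemma srt_srt {n n' : ℕ} (e : Fin n ≃ Fin n') (a : Pair n) : srt e.symm (srt e a) = a := by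
  by_cases h : e a.1.1 < e a.1.2
  · have h1 : srt e a = ⟨(e a.1.1, e a.1.2), h⟩ := by simp [srt, h]
    rw [h1]
    have h2 : e.symm (e a.1.1) < e.symm (e a.1.2) := by
      rw [e.symm_apply_apply, e.symm_apply_apply]; exact a.2
    unfold srt
    rw [dif_pos h2]
    apply Subtype.ext
    simp
  · have h1 : srt e a = ⟨(e a.1.2, e a.1.1), lt_of_le_of_ne (not_lt.1 h)
      (fun h' => (ne_of_lt a.2) (e.injective h'.symm))⟩ := by simp [srt, h]
    rw [h1]
    have h2 : ¬ (e.symm (e a.1.2) < e.symm (e a.1.1)) := by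
      rw [e.symm_apply_apply, e.symm_apply_apply]; exact not_lt.2 a.2.le
    unfold srt
    rw [dif_neg h2]
    apply Subtype.ext
    simp

/-- relabelling of pairs -/
def srtE {n n' : ℕ} (e : Fin n ≃ Fin n') : Pair n ≃ Pair n' where
  toFun := srt e
  invFun := srt e.symm
  left_inv := srt_srt e
  right_inv a := by
    have := srt_srt e.symm a
    rwa [Equiv.symm_symm] at this

lemma prod_pair_equiv {n n' : ℕ} (e : Fin n ≃ Fin n') (f : Fin n' → Fin n' → ℂ)
    (hf : ∀ i j, f i j = f j i) :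
    ∏ a : Pair n', f a.1.1 a.1.2 = ∏ a : Pair n, f (e a.1.1) (e a.1.2) := by
  rw [← (srtE e).prod_comp]
  refine prod_congr rfl fun a _ => ?_
  change f (srt e a).1.1 (srt e a).1.2 = _
  unfold srt
  split_ifs with h
  · rfl
  · exact hf _ _

/-- path functional with general pair kernels -/
noncomputable def GK (β : ℕ → ℝ) (p n : ℕ) (φ : Fin n → CP p → ℂ)
    (K : Fin n → Fin n → CP p → CP p → ℂ) : ℂ :=
  ∑ X : Fin n → CP p, (∏ j, wgt β p (X j) * φ j (X j)) *
    ∏ e : Pair n, K e.1.1 e.1.2 (X e.1.1) (X e.1.2)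

lemma GK_equiv (β : ℕ → ℝ) (p : ℕ) {n n' : ℕ} (e : Fin n ≃ Fin n') (φ : Fin n' → CP p → ℂ)
    (K : Fin n' → Fin n' → CP p → CP p → ℂ) (hK : ∀ i j x y, K i j x y = K j i y x) :
    GK β p n' φ K = GK β p n (fun j => φ (e j)) (fun i j => K (e i) (e j)) := by
  unfold GK
  rw [← (Equiv.arrowCongr e (Equiv.refl (CP p))).sum_comp]
  refine sum_congr rfl fun X _ => ?_
  have h0 : ∀ i, (Equiv.arrowCongr e (Equiv.refl (CP p))) X (e i) = X i := by
    intro i; simp [Equiv.arrowCongr]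
  congr 1
  · rw [← e.prod_comp]
    refine prod_congr rfl fun i _ => ?_
    rw [h0]
  · rw [prod_pair_equiv e (fun i j => K i j ((Equiv.arrowCongr e (Equiv.refl (CP p))) X i)
      ((Equiv.arrowCongr e (Equiv.refl (CP p))) X j)) (fun i j => hK _ _ _ _)]
    refine prod_congr rfl fun a _ => ?_
    rw [h0, h0]

/-- pairs of `m + N` sites -/
lemma prod_pair_add {m N : ℕ} (f : Fin (m + N) → Fin (m + N) → ℂ) :
    ∏ e : Pair (m + N), f e.1.1 e.1.2
      = (∏ e : Pair m, f (Fin.castAdd N e.1.1) (Fin.castAdd N e.1.2)) *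
        (∏ e : Pair N, f (Fin.natAdd m e.1.1) (Fin.natAdd m e.1.2)) *
        ∏ j : Fin N, ∏ i : Fin m, f (Fin.castAdd N i) (Fin.natAdd m j) := by
  rw [prod_pair f, prod_pair (fun i j => f (Fin.castAdd N i) (Fin.castAdd N j)),
    prod_pair (fun i j => f (Fin.natAdd m i) (Fin.natAdd m j)), Fin.prod_univ_add]
  simp_rw [Fin.prod_univ_add]
  have h1 : ∀ (i : Fin m) (j : Fin N), Fin.castAdd N i < Fin.natAdd m j := by
    intro i j
    rw [Fin.lt_def]
    simp only [Fin.val_castAdd, Fin.val_natAdd]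
    omega
  have h2 : ∀ (i : Fin m) (j : Fin N), ¬ (Fin.natAdd m j < Fin.castAdd N i) := fun i j =>
    not_lt.2 (h1 i j).le
  have h3 : ∀ i j : Fin m, (Fin.castAdd N i < Fin.castAdd N j) ↔ i < j := by
    intro i j
    rw [Fin.lt_def, Fin.lt_def]
    simp
  have h4 : ∀ i j : Fin N, (Fin.natAdd m i < Fin.natAdd m j) ↔ i < j := by
    intro i j
    rw [Fin.lt_def, Fin.lt_def]
    simp
  simp only [h1, h2, h3, h4, if_true, if_false, prod_const_one, one_mul]
  rw [prod_mul_distrib]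
  have h5 : ∏ i : Fin m, ∏ j : Fin N, f (Fin.castAdd N i) (Fin.natAdd m j)
      = ∏ j : Fin N, ∏ i : Fin m, f (Fin.castAdd N i) (Fin.natAdd m j) := Finset.prod_comm
  rw [h5]
  ring

/-- split-off of the first sites -/
lemma GK_add (β : ℕ → ℝ) (p m N : ℕ) (φ : Fin (m + N) → CP p → ℂ)
    (K : Fin (m + N) → Fin (m + N) → CP p → CP p → ℂ) :
    GK β p (m + N) φ K = ∑ X : Fin m → CP p, (∏ i, wgt β p (X i) * φ (Fin.castAdd N i) (X i)) *
      ((∏ e : Pair m, K (Fin.castAdd N e.1.1) (Fin.castAdd N e.1.2) (X e.1.1) (X e.1.2)) *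
      GK β p N (fun j y => φ (Fin.natAdd m j) y *
        ∏ i, K (Fin.castAdd N i) (Fin.natAdd m j) (X i) y)
        (fun i j => K (Fin.natAdd m i) (Fin.natAdd m j))) := by
  unfold GK
  rw [← (Fin.appendEquiv m N).sum_comp, Fintype.sum_prod_type]
  refine sum_congr rfl fun X _ => ?_
  rw [mul_sum, mul_sum]
  refine sum_congr rfl fun Y _ => ?_
  have hl : ∀ i, (Fin.appendEquiv m N) (X, Y) (Fin.castAdd N i) = X i := fun i => by
    simp [Fin.appendEquiv]
  have hr : ∀ j, (Fin.appendEquiv m N) (X, Y) (Fin.natAdd m j) = Y j := fun j => by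
    simp [Fin.appendEquiv]
  rw [Fin.prod_univ_add, prod_pair_add (fun a b => K a b ((Fin.appendEquiv m N) (X, Y) a)
    ((Fin.appendEquiv m N) (X, Y) b))]
  simp_rw [hl, hr]
  have h1 : ∏ j, wgt β p (Y j) * (φ (Fin.natAdd m j) (Y j) *
        ∏ i, K (Fin.castAdd N i) (Fin.natAdd m j) (X i) (Y j))
      = (∏ j, wgt β p (Y j) * φ (Fin.natAdd m j) (Y j)) *
        ∏ j, ∏ i, K (Fin.castAdd N i) (Fin.natAdd m j) (X i) (Y j) := by
    rw [← prod_mul_distrib]
    refine prod_congr rfl fun j _ => ?_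
    ring
  rw [h1]
  ring

/-- characteristic function of the coupling law -/
noncomputable def cw (ν : Measure ℝ) (t : ℝ) : ℂ :=
  ∫ x : ℝ, Complex.exp (-(Complex.I * ((t * x : ℝ) : ℂ))) ∂ν

/-- pair kernel -/
noncomputable def kr (ν : Measure ℝ) (γ : ℕ → ℝ) (p : ℕ) (s : ℝ) (x y : CP p) : ℂ :=
  cw ν (s * qq γ p x y)

lemma kr_comm (ν : Measure ℝ) (γ : ℕ → ℝ) (p : ℕ) (s : ℝ) (x y : CP p) :
    kr ν γ p s x y = kr ν γ p s y x := by
  unfold kr
  rw [qq_comm]

lemma cw_zero (ν : Measure ℝ) [IsProbabilityMeasure ν] : cw ν 0 = 1 := by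
  unfold cw
  simp

/-- the functional of a coupling law -/
noncomputable def FN (ν : Measure ℝ) (γ β : ℕ → ℝ) (p n : ℕ) (s : ℝ) (φ : Fin n → CP p → ℂ) : ℂ :=
  GK β p n φ (fun _ _ => kr ν γ p s)

lemma integrable_exp_pi {ι : Type*} [Fintype ι] (ν : Measure ℝ) [IsProbabilityMeasure ν]
    (c : ι → ℝ) :
    Integrable (fun J : ι → ℝ => Complex.exp (-(Complex.I * ((∑ e, c e * J e : ℝ) : ℂ))))
      (Measure.pi fun _ => ν) := by
  refine (integrable_const (1 : ℝ)).mono' ?_ ?_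
  · refine Continuous.aestronglyMeasurable ?_
    fun_prop
  · exact Filter.Eventually.of_forall fun J => (norm_exp_neg_I _).le

lemma char_pi {ι : Type*} [Fintype ι] (ν : Measure ℝ) [IsProbabilityMeasure ν] (c : ι → ℝ) :
    ∫ J : ι → ℝ, Complex.exp (-(Complex.I * ((∑ e, c e * J e : ℝ) : ℂ)))
      ∂(Measure.pi fun _ => ν) = ∏ e, cw ν (c e) := by
  have h1 : ∀ J : ι → ℝ, Complex.exp (-(Complex.I * ((∑ e, c e * J e : ℝ) : ℂ)))
      = ∏ e, Complex.exp (-(Complex.I * ((c e * J e : ℝ) : ℂ))) := by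
    intro J
    rw [← Complex.exp_sum]
    congr 1
    push_cast
    rw [mul_sum, ← sum_neg_distrib]
  simp_rw [h1]
  rw [integral_fintype_prod_eq_prod (f := fun e (x : ℝ) =>
    Complex.exp (-(Complex.I * ((c e * x : ℝ) : ℂ))))]
  rfl

/-- couplings of pairs as a matrix -/
noncomputable def upM {n : ℕ} (J : Pair n → ℝ) (e : Fin n × Fin n) : ℝ :=
  if h : e.1 < e.2 then Real.sqrt 2 * J ⟨e, h⟩ else 0

lemma sum_upM {n : ℕ} (γ : ℕ → ℝ) (p : ℕ) (s : ℝ) (X : Fin n → CP p) (J : Pair n → ℝ) :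
    ∑ e, cf γ p s (fun _ _ => 0) X e * upM J e
      = ∑ e : Pair n, (s * qq γ p (X e.1.1) (X e.1.2)) * J e := by
  have h1 : ∀ e : Fin n × Fin n, cf γ p s (fun _ _ => 0) X e * upM J e
      = if h : e.1 < e.2 then (s * qq γ p (X e.1) (X e.2)) * J ⟨e, h⟩ else 0 := by
    intro e
    unfold upM cf
    by_cases h : e.1 < e.2
    · rw [dif_pos h, dif_pos h, if_neg h.ne]
      have h2 : Real.sqrt 2 ≠ 0 := by positivity
      field_simp
      ring
    · rw [dif_neg h, dif_neg h, mul_zero]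
  simp_rw [h1]
  rw [← Finset.sum_filter_add_sum_filter_not univ (fun e : Fin n × Fin n => e.1 < e.2)]
  rw [Finset.sum_eq_zero (s := univ.filter (fun e : Fin n × Fin n => ¬ e.1 < e.2))]
  · rw [add_zero]
    have h2 : ∑ e ∈ univ.filter (fun e : Fin n × Fin n => e.1 < e.2),
        (if h : e.1 < e.2 then (s * qq γ p (X e.1) (X e.2)) * J ⟨e, h⟩ else 0)
        = ∑ e : Pair n, (if h : e.1.1 < e.1.2 then
          (s * qq γ p (X e.1.1) (X e.1.2)) * J ⟨e.1, h⟩ else 0) :=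
      Finset.sum_subtype (univ.filter (fun e : Fin n × Fin n => e.1 < e.2)) (by simp)
        (fun e => if h : e.1 < e.2 then (s * qq γ p (X e.1) (X e.2)) * J ⟨e, h⟩ else 0)
    rw [h2]
    refine sum_congr rfl fun e _ => ?_
    rw [dif_pos e.2]
  · intro e he
    rw [dif_neg (mem_filter.1 he).2]

/-- representation of `FN` as an average over couplings -/
lemma FN_eq_integral (ν : Measure ℝ) [IsProbabilityMeasure ν] (γ β : ℕ → ℝ) (p n : ℕ) (s : ℝ)
    (φ : Fin n → CP p → ℂ) :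
    FN ν γ β p n s φ = ∫ J : Pair n → ℝ, (∑ X : Fin n → CP p, (∏ j, wgt β p (X j) * φ j (X j)) *
      Complex.exp (-(Complex.I * ((∑ e : Pair n, (s * qq γ p (X e.1.1) (X e.1.2)) * J e
        : ℝ) : ℂ)))) ∂(Measure.pi fun _ => ν) := by
  rw [integral_finsetSum]
  · unfold FN GK
    refine sum_congr rfl fun X _ => ?_
    rw [integral_const_mul, char_pi]
    rfl
  · intro X _
    exact (integrable_exp_pi ν _).const_mul _

/-- unitarity bound for product-form one-site factors -/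
theorem norm_FN_le (ν : Measure ℝ) [IsProbabilityMeasure ν] (γ β : ℕ → ℝ) (p n : ℕ) (s : ℝ)
    (φ : Fin n → CP p → ℂ) (U W : Fin n → Fin (p + 1) → Bool → ℂ)
    (hU : ∀ j k b, ‖U j k b‖ ≤ 1) (hW : ∀ j k b, ‖W j k b‖ ≤ 1)
    (hφ : ∀ j x, φ j x = (∏ k, U j k (x.1 k)) * ∏ k, W j k (x.2 k)) :
    ‖FN ν γ β p n s φ‖ ≤ 1 := by
  rw [FN_eq_integral]
  have := norm_integral_le_of_norm_le_const (μ := Measure.pi fun _ : Pair n => ν)
    (C := 1) (f := fun J : Pair n → ℝ => ∑ X : Fin n → CP p,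
      (∏ j, wgt β p (X j) * φ j (X j)) *
      Complex.exp (-(Complex.I * ((∑ e : Pair n, (s * qq γ p (X e.1.1) (X e.1.2)) * J e
        : ℝ) : ℂ))))
    (Filter.Eventually.of_forall fun J => by
      have h := norm_inner_le γ β p s (fun _ _ => 0) φ U W hU hW hφ (upM J)
      simp_rw [sum_upM] at h
      exact h)
  simpa using this

end Vale.Agent.P367.H84.U
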