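import Vale.Agent.P367.H84.U1

/-!
# P367 : universality in the disorder, marginals (helper84)
-/

set_option linter.all false

namespace Vale.Agent.P367.H84.U

open Finset ComplexConjugate MeasureTheory ProbabilityTheory Filter Topology
open Vale.Agent.P367.Gap Vale.Agent.P367.Lim

/-- marginal of `m` sites in a system of `m + N` sites -/
noncomputable def MN (ν : Measure ℝ) (γ β : ℕ → ℝ) (p m N : ℕ) (s : ℝ) (y : Fin m → CP p) : ℂ :=
  FN ν γ β p (m + N) s
    (Fin.append (fun i x => if x = y i then (1 : ℂ) else 0) (fun _ _ => (1 : ℂ)))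

lemma norm_MN_le (ν : Measure ℝ) [IsProbabilityMeasure ν] (γ β : ℕ → ℝ) (p m N : ℕ) (s : ℝ)
    (y : Fin m → CP p) : ‖MN ν γ β p m N s y‖ ≤ 1 := by
  refine norm_FN_le ν γ β p _ s _
    (Fin.append (fun i k b => if b = (y i).1 k then (1 : ℂ) else 0) (fun _ _ _ => (1 : ℂ)))
    (Fin.append (fun i k b => if b = (y i).2 k then (1 : ℂ) else 0) (fun _ _ _ => (1 : ℂ)))
    ?_ ?_ ?_
  · intro j
    refine Fin.addCases (fun i => ?_) (fun i => ?_) j
    · intro k b
      rw [Fin.append_left]; split_ifs <;> simp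
    · intro k b
      rw [Fin.append_right]; simp
  · intro j
    refine Fin.addCases (fun i => ?_) (fun i => ?_) j
    · intro k b
      rw [Fin.append_left]; split_ifs <;> simp
    · intro k b
      rw [Fin.append_right]; simp
  · intro j
    refine Fin.addCases (fun i => ?_) (fun i => ?_) j
    · intro x
      rw [Fin.append_left, Fin.append_left, Fin.append_left]
      exact indicator_prod x (y i)
    · intro x
      rw [Fin.append_right, Fin.append_right, Fin.append_right]
      simp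

lemma FN_inl (ν : Measure ℝ) (γ β : ℕ → ℝ) (p r N : ℕ) (s : ℝ) (u : CP p → ℂ) :
    FN ν γ β p (r + N) s (Fin.append (fun _ => u) (fun _ _ => (1 : ℂ)))
      = ∑ y : Fin r → CP p, (∏ i, u (y i)) * MN ν γ β p r N s y := by
  unfold MN FN GK
  simp_rw [mul_sum]
  rw [Finset.sum_comm]
  refine sum_congr rfl fun X _ => ?_
  simp_rw [Fin.prod_univ_add, Fin.append_left, Fin.append_right, prod_mul_distrib]
  have h1 : ∑ y : Fin r → CP p, (∏ i, u (y i)) *
      (∏ i, if X (Fin.castAdd N i) = y i then (1 : ℂ) else 0)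
      = ∏ i, u (X (Fin.castAdd N i)) := by
    rw [sum_eq_single (fun i => X (Fin.castAdd N i))]
    · simp
    · intro y _ hy
      obtain ⟨i, hi⟩ := Function.ne_iff.1 hy
      rw [prod_eq_zero (s := univ) (f := fun i => if X (Fin.castAdd N i) = y i then (1 : ℂ) else 0)
        (mem_univ i) (if_neg (fun h => hi h.symm)), mul_zero]
    · intro h; exact absurd (mem_univ _) h
  rw [← h1, mul_sum, sum_mul, sum_mul]
  refine sum_congr rfl fun y _ => ?_
  ring

lemma FN_powerset (ν : Measure ℝ) (γ β : ℕ → ℝ) (p N : ℕ) (s : ℝ) (u : CP p → ℂ) :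
    FN ν γ β p N s (fun _ x => 1 + u x)
      = ∑ T ∈ (univ : Finset (Fin N)).powerset,
        FN ν γ β p N s (fun j x => if j ∈ T then u x else 1) := by
  unfold FN GK
  rw [Finset.sum_comm]
  refine sum_congr rfl fun X _ => ?_
  rw [prod_mul_distrib, prod_one_add, mul_sum, sum_mul]
  refine sum_congr rfl fun T _ => ?_
  rw [prod_mul_distrib, prod_ite_mem, univ_inter]

lemma FN_subset (ν : Measure ℝ) (γ β : ℕ → ℝ) (p N : ℕ) (s : ℝ) (u : CP p → ℂ)
    (T : Finset (Fin N)) :
    FN ν γ β p N s (fun j x => if j ∈ T then u x else 1)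
      = FN ν γ β p (T.card + (N - T.card)) s (Fin.append (fun _ => u) (fun _ _ => (1 : ℂ))) := by
  have hn : Tᶜ.card = N - T.card := by
    rw [card_compl, Fintype.card_fin]
  unfold FN
  rw [GK_equiv β p (finSumFinEquiv.symm.trans (finSumEquivOfFinset (rfl : T.card = T.card) hn))
    _ _ (fun _ _ x y => kr_comm ν γ p s x y)]
  congr 1
  funext j
  refine Fin.addCases (fun i => ?_) (fun i => ?_) j
  · funext x
    rw [Fin.append_left]
    simp only [Equiv.trans_apply, finSumFinEquiv_symm_apply_castAdd]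
    rw [finSumEquivOfFinset_inl, if_pos (orderEmbOfFin_mem T rfl i)]
  · funext x
    have := orderEmbOfFin_mem Tᶜ hn i
    rw [Fin.append_right]
    simp only [Equiv.trans_apply, finSumFinEquiv_symm_apply_natAdd]
    rw [finSumEquivOfFinset_inr, if_neg (mem_compl.1 this)]

lemma FN_one_add (ν : Measure ℝ) (γ β : ℕ → ℝ) (p N : ℕ) (s : ℝ) (u : CP p → ℂ) :
    FN ν γ β p N s (fun _ x => 1 + u x)
      = ∑ r ∈ range (N + 1), (N.choose r : ℂ) *
        ∑ y : Fin r → CP p, (∏ i, u (y i)) * MN ν γ β p r (N - r) s y := by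
  rw [FN_powerset]
  simp_rw [FN_subset, FN_inl]
  have := sum_powerset_apply_card (fun r => ∑ y : Fin r → CP p, (∏ i, u (y i))
    * MN ν γ β p r (N - r) s y) (x := (univ : Finset (Fin N)))
  rw [this, card_univ, Fintype.card_fin]
  refine sum_congr rfl fun r _ => ?_
  rw [nsmul_eq_mul]

/-- convergence of all marginals -/
def LTN (ν : Measure ℝ) (γ β : ℕ → ℝ) (p : ℕ) : Prop :=
  ∀ (m : ℕ) (y : Fin m → CP p) (s : ℕ → ℝ), Tendsto (fun N : ℕ => (N : ℝ) * s N ^ 2) atTop (𝓝 1) →
    Tendsto (fun N => MN ν γ β p m N (s N) y) atTop (𝓝 (∏ i, gg γ β p (y i)))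

lemma tendsto_MN_sub (ν : Measure ℝ) (γ β : ℕ → ℝ) (p : ℕ) (h : LTN ν γ β p) (r : ℕ)
    (y : Fin r → CP p) (s : ℕ → ℝ)
    (hs : Tendsto (fun N : ℕ => (N : ℝ) * s N ^ 2) atTop (𝓝 1)) :
    Tendsto (fun N => MN ν γ β p r (N - r) (s N) y) atTop (𝓝 (∏ i, gg γ β p (y i))) := by
  have h1 := h r y (fun N => s (N + r)) (tendsto_shift_s s hs r)
  have h2 : Tendsto (fun N : ℕ => N - r) atTop atTop := tendsto_sub_atTop_nat r
  refine (h1.comp h2).congr' ?_
  filter_upwards [eventually_ge_atTop r] with N hN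
  simp only [Function.comp]
  rw [Nat.sub_add_cancel hN]

/-- exponential functionals converge -/
theorem tendsto_FN_exp (ν : Measure ℝ) [IsProbabilityMeasure ν] (γ β : ℕ → ℝ) (p : ℕ)
    (h : LTN ν γ β p) (s : ℕ → ℝ)
    (hs : Tendsto (fun N : ℕ => (N : ℝ) * s N ^ 2) atTop (𝓝 1))
    (u : ℕ → CP p → ℂ) (t : CP p → ℂ)
    (hu : ∀ y, Tendsto (fun N : ℕ => (N : ℂ) * u N y) atTop (𝓝 (t y))) :
    Tendsto (fun N => FN ν γ β p N (s N) (fun _ x => 1 + u N x)) atTop
      (𝓝 (Complex.exp (∑ y, gg γ β p y * t y))) := by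
  let a : ℕ → ℕ → ℂ := fun N r => (N.choose r : ℂ) *
        ∑ y : Fin r → CP p, (∏ i, u N (y i)) * MN ν γ β p r (N - r) (s N) y
  have ha : ∀ N, FN ν γ β p N (s N) (fun _ x => 1 + u N x) = ∑' r, a N r := by
    intro N
    rw [FN_one_add, tsum_eq_sum (s := range (N + 1))]
    intro r hr
    have : N < r := by
      by_contra h'
      exact hr (mem_range.2 (by omega))
    simp only [a, Nat.choose_eq_zero_of_lt this, Nat.cast_zero, zero_mul]
  simp_rw [ha]
  let A : ℂ := ∑ y, gg γ β p y * t y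
  have hexp : Complex.exp A = ∑' r : ℕ, A ^ r / (r.factorial : ℂ) := by
    rw [Complex.exp_eq_exp_ℂ, NormedSpace.exp_eq_tsum_div]
  change Tendsto (fun N => ∑' r, a N r) atTop (𝓝 (Complex.exp A))
  rw [hexp]
  obtain ⟨C, hC0, hC⟩ : ∃ C : ℝ, 0 ≤ C ∧ ∀ᶠ N : ℕ in atTop, ∀ y, ‖(N : ℂ) * u N y‖ ≤ C := by
    refine ⟨∑ y, (‖t y‖ + 1), sum_nonneg fun _ _ => by positivity, ?_⟩
    rw [eventually_all]
    intro y
    have h1 : ∀ᶠ N : ℕ in atTop, ‖(N : ℂ) * u N y‖ < ‖t y‖ + 1 :=
      (hu y).norm.eventually_lt_const (by linarith)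
    filter_upwards [h1] with N hN
    refine hN.le.trans ?_
    exact single_le_sum (f := fun y => ‖t y‖ + 1) (fun _ _ => by positivity) (mem_univ y)
  refine tendsto_tsum_of_dominated_convergence
    (bound := fun r : ℕ => (C * Fintype.card (CP p)) ^ r / r.factorial)
    (Real.summable_pow_div_factorial _) ?_ ?_
  · intro r
    have h1 : Tendsto (fun N : ℕ => (N.choose r : ℂ) * ((1 : ℂ) / N) ^ r) atTop
        (𝓝 (1 / (r.factorial : ℂ))) := by
      have h2 : Tendsto (fun n : ℕ => (n : ℝ) * (1 / n)) atTop (𝓝 1) := by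
        refine tendsto_const_nhds.congr' ?_
        filter_upwards [eventually_gt_atTop 0] with n hn
        have : (n : ℝ) ≠ 0 := by positivity
        field_simp
      have h3 := tendsto_choose_mul_pow_atTop (k := r) h2
      rw [one_pow] at h3
      have h4 := (Complex.continuous_ofReal.tendsto _).comp h3
      refine (h4.congr fun n => ?_).trans (le_of_eq ?_)
      · simp
      · simp
    have h5 : ∀ y : Fin r → CP p, Tendsto (fun N : ℕ => (∏ i, ((N : ℂ) * u N (y i)))
        * MN ν γ β p r (N - r) (s N) y) atTop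
        (𝓝 ((∏ i, t (y i)) * ∏ i, gg γ β p (y i))) := fun y =>
      (tendsto_finsetProd _ fun i _ => hu (y i)).mul (tendsto_MN_sub ν γ β p h r y s hs)
    have h6 := h1.mul (tendsto_finsetSum univ fun y _ => h5 y)
    have h7 : 1 / (r.factorial : ℂ) * ∑ y : Fin r → CP p, (∏ i, t (y i)) * ∏ i, gg γ β p (y i)
        = A ^ r / (r.factorial : ℂ) := by
      have : A ^ r = ∑ y : Fin r → CP p, (∏ i, t (y i)) * ∏ i, gg γ β p (y i) := by
        have h8 := (Finset.prod_univ_sum (fun _ : Fin r => (univ : Finset (CP p)))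
          (fun _ y => gg γ β p y * t y))
        rw [Fintype.piFinset_univ, prod_const, card_univ, Fintype.card_fin] at h8
        rw [h8]
        refine sum_congr rfl fun y _ => ?_
        rw [prod_mul_distrib, mul_comm]
      rw [this]
      ring
    rw [h7] at h6
    refine h6.congr' ?_
    filter_upwards [eventually_gt_atTop 0] with N hN
    have hN' : (N : ℂ) ≠ 0 := by exact_mod_cast hN.ne'
    simp only [a, mul_sum]
    refine sum_congr rfl fun y _ => ?_
    rw [prod_mul_distrib, prod_const, card_univ, Fintype.card_fin, one_div, inv_pow]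
    field_simp
  · filter_upwards [hC, eventually_gt_atTop 0] with N hN hN0 r
    have hN' : (0 : ℝ) < N := by exact_mod_cast hN0
    have hub : ∀ y, ‖u N y‖ ≤ C / N := by
      intro y
      rw [le_div_iff₀ hN', mul_comm]
      simpa using hN y
    simp only [a, norm_mul, Complex.norm_natCast]
    have h1 : ‖∑ y : Fin r → CP p, (∏ i, u N (y i)) * MN ν γ β p r (N - r) (s N) y‖
        ≤ (Fintype.card (CP p) : ℝ) ^ r * (C / N) ^ r := by
      refine (norm_sum_le _ _).trans ?_
      calc ∑ y : Fin r → CP p, ‖(∏ i, u N (y i)) * MN ν γ β p r (N - r) (s N) y‖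
          ≤ ∑ _y : Fin r → CP p, (C / N) ^ r := by
            refine sum_le_sum fun y _ => ?_
            rw [norm_mul, norm_prod]
            have h2 : ∏ i, ‖u N (y i)‖ ≤ (C / N) ^ r := by
              calc ∏ i, ‖u N (y i)‖ ≤ ∏ _i : Fin r, (C / N) :=
                    prod_le_prod (fun _ _ => norm_nonneg _) fun i _ => hub (y i)
                _ = (C / N) ^ r := by rw [prod_const, card_univ, Fintype.card_fin]
            calc (∏ i, ‖u N (y i)‖) * ‖MN ν γ β p r (N - r) (s N) y‖
                ≤ (C / N) ^ r * 1 := by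
                  gcongr
                  exact norm_MN_le _ _ _ _ _ _ _ _
              _ = _ := mul_one _
        _ = _ := by
            rw [sum_const, card_univ, Fintype.card_fun, Fintype.card_fin, nsmul_eq_mul]
            push_cast
            rfl
    have h3 : (N.choose r : ℝ) ≤ (N : ℝ) ^ r / r.factorial := Nat.choose_le_pow_div r N
    calc (N.choose r : ℝ) * ‖∑ y : Fin r → CP p, (∏ i, u N (y i)) * MN ν γ β p r (N - r) (s N) y‖
        ≤ ((N : ℝ) ^ r / r.factorial) * ((Fintype.card (CP p) : ℝ) ^ r * (C / N) ^ r) := by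
          gcongr
      _ = (C * Fintype.card (CP p)) ^ r / r.factorial := by
          rw [mul_pow, div_pow]
          field_simp

/-- causality -/
theorem FN_succ (ν : Measure ℝ) (γ β : ℕ → ℝ) (p n : ℕ) (s : ℝ) (φ : Fin n → CP p → ℂ) :
    FN ν γ β (p + 1) n s (fun j x => φ j (ini x)) = FN ν γ β p n s φ := by
  unfold FN GK
  rw [← (splitC (Fin n) p).symm.sum_comp, Fintype.sum_prod_type]
  refine sum_congr rfl fun X _ => ?_
  have hini : ∀ c j, ini ((splitC (Fin n) p).symm (X, c) j) = X j := by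
    intro c j
    simp only [splitC, Equiv.coe_fn_symm_mk, ini, Fin.init_snoc]
  have hQ : ∀ (c : Fin n → Bool × Bool), ∏ e : Pair n, kr ν γ (p + 1) s
      ((splitC (Fin n) p).symm (X, c) e.1.1) ((splitC (Fin n) p).symm (X, c) e.1.2)
      = ∏ e : Pair n, cw ν (s * qh γ p (X e.1.1) (X e.1.2)) := by
    intro c
    refine prod_congr rfl fun e _ => ?_
    unfold kr
    rw [qq_succ, hini, hini]
  simp_rw [hQ, hini]
  rw [← sum_mul]
  have h3 : ∑ c : Fin n → Bool × Bool, ∏ j, wgt β (p + 1) ((splitC (Fin n) p).symm (X, c) j)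
      * φ j (X j) = ∏ j, wgt β p (X j) * φ j (X j) := by
    simp_rw [prod_mul_distrib]
    rw [← sum_mul]
    congr 1
    have h4 := (Finset.prod_univ_sum (fun _ : Fin n => (univ : Finset (Bool × Bool)))
      (fun j c => wgt β (p + 1) ((Fin.snoc (α := fun _ => Bool) (X j).1 c.1,
        Fin.snoc (α := fun _ => Bool) (X j).2 c.2) : CP (p + 1))))
    rw [Fintype.piFinset_univ] at h4
    have h5 : ∀ c : Fin n → Bool × Bool, ∀ j, (splitC (Fin n) p).symm (X, c) j
        = ((Fin.snoc (α := fun _ => Bool) (X j).1 (c j).1,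
          Fin.snoc (α := fun _ => Bool) (X j).2 (c j).2) : CP (p + 1)) := fun c j => rfl
    simp_rw [h5]
    rw [← h4]
    refine prod_congr rfl fun j _ => ?_
    exact sum_last β p (X j)
  rw [h3]
  by_cases hcl : ∀ j, (X j).1 (Fin.last p) = (X j).2 (Fin.last p)
  · congr 1
    refine prod_congr rfl fun e _ => ?_
    unfold kr
    rw [qh_eq_of_closed γ p _ _ (hcl _) (hcl _)]
  · push Not at hcl
    obtain ⟨j, hj⟩ := hcl
    have h0 : ∏ j, wgt β p (X j) * φ j (X j) = 0 := by
      refine prod_eq_zero (mem_univ j) ?_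
      unfold wgt
      rw [if_neg hj]
      ring
    rw [h0]
    ring

end Vale.Agent.P367.H84.U
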