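import Vale.Agent.P367.H84.U2

/-!
# P367 : universality in the disorder, second order of the characteristic function (helper84)
-/

set_option linter.all false

namespace Vale.Agent.P367.H84.U

open Finset ComplexConjugate MeasureTheory ProbabilityTheory Filter Topology
open Vale.Agent.P367.Gap Vale.Agent.P367.Lim

lemma exp_third_order {θ : ℝ} (h : |θ| ≤ 1) :
    ‖Complex.exp (-(Complex.I * (θ : ℂ))) - 1 + Complex.I * θ + ((θ ^ 2 / 2 : ℝ) : ℂ)‖
      ≤ |θ| ^ 3 := by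
  have hn : ‖-(Complex.I * (θ : ℂ))‖ = |θ| := by
    rw [norm_neg, norm_mul, Complex.norm_I, one_mul, Complex.norm_real, Real.norm_eq_abs]
  have h1 := Complex.exp_bound (x := -(Complex.I * (θ : ℂ))) (by rw [hn]; exact h) (n := 3)
    (by norm_num)
  rw [hn] at h1
  have h2 : Complex.exp (-(Complex.I * (θ : ℂ))) - 1 + Complex.I * θ + ((θ ^ 2 / 2 : ℝ) : ℂ)
      = Complex.exp (-(Complex.I * (θ : ℂ)))
        - ∑ m ∈ range 3, (-(Complex.I * (θ : ℂ))) ^ m / (m.factorial : ℂ) := by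
    simp only [Finset.sum_range_succ, Finset.sum_range_zero, pow_zero, pow_one, Nat.factorial]
    push_cast
    have hI := Complex.I_sq
    linear_combination ((θ : ℂ) ^ 2 / 2) * hI
  rw [h2]
  refine h1.trans ?_
  have h3 : ((Nat.succ 3 : ℕ) : ℝ) * (((Nat.factorial 3 : ℕ) : ℝ) * ((3 : ℕ) : ℝ))⁻¹ ≤ 1 := by
    norm_num [Nat.factorial]
  have h4 : 0 ≤ |θ| ^ 3 := by positivity
  calc |θ| ^ 3 * (((Nat.succ 3 : ℕ) : ℝ) * (((Nat.factorial 3 : ℕ) : ℝ) * ((3 : ℕ) : ℝ))⁻¹)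
      ≤ |θ| ^ 3 * 1 := mul_le_mul_of_nonneg_left h3 h4
    _ = _ := mul_one _

lemma tendsto_s_zero (s : ℕ → ℝ) (hs : Tendsto (fun N : ℕ => (N : ℝ) * s N ^ 2) atTop (𝓝 1)) :
    Tendsto (fun N : ℕ => s N) atTop (𝓝 0) := by
  have hs0 : Tendsto (fun N : ℕ => s N ^ 2) atTop (𝓝 0) := by
    have h2 : Tendsto (fun N : ℕ => ((N : ℝ))⁻¹) atTop (𝓝 0) := tendsto_inv_atTop_nhds_zero_nat
    have h3 := h2.mul hs
    rw [zero_mul] at h3
    refine h3.congr' ?_
    filter_upwards [eventually_gt_atTop 0] with N hN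
    have : (N : ℝ) ≠ 0 := by positivity
    field_simp
  have h4 : Tendsto (fun N : ℕ => |s N|) atTop (𝓝 0) := by
    have h5 := (Real.continuous_sqrt.tendsto _).comp hs0
    rw [Real.sqrt_zero] at h5
    refine h5.congr fun N => ?_
    simp only [Function.comp]
    exact Real.sqrt_sq_eq_abs _
  exact (tendsto_zero_iff_abs_tendsto_zero _).2 h4

variable (ν : Measure ℝ) [IsProbabilityMeasure ν]

lemma integrable_id_of_sq (h2 : Integrable (fun x : ℝ => x ^ 2) ν) :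
    Integrable (fun x : ℝ => x) ν := by
  refine ((integrable_const (1 : ℝ)).add h2).mono' ?_ ?_
  · exact measurable_id.aestronglyMeasurable
  · refine Filter.Eventually.of_forall fun x => ?_
    simp only [Real.norm_eq_abs, Pi.add_apply]
    rcases abs_cases x with ⟨h, _⟩ | ⟨h, _⟩ <;> rw [h] <;> nlinarith [sq_nonneg (x - 1), sq_nonneg (x + 1)]

lemma cw_sub_one (h2 : Integrable (fun x : ℝ => x ^ 2) ν) (h0 : ∫ x : ℝ, x ∂ν = 0) (t : ℝ) :
    cw ν t - 1 = ∫ x : ℝ, (Complex.exp (-(Complex.I * ((t * x : ℝ) : ℂ))) - 1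
      + Complex.I * ((t * x : ℝ) : ℂ)) ∂ν := by
  have hi := integrable_id_of_sq ν h2
  have i1 : Integrable (fun x : ℝ => Complex.exp (-(Complex.I * ((t * x : ℝ) : ℂ)))) ν := by
    refine (integrable_const (1 : ℝ)).mono' ?_ ?_
    · refine Continuous.aestronglyMeasurable ?_
      fun_prop
    · exact Filter.Eventually.of_forall fun x => (norm_exp_neg_I _).le
  have i2 : Integrable (fun x : ℝ => Complex.I * ((t * x : ℝ) : ℂ)) ν :=
    ((hi.const_mul t).ofReal).const_mul _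
  have i3 : Integrable (fun x : ℝ => Complex.exp (-(Complex.I * ((t * x : ℝ) : ℂ))) - 1) ν :=
    i1.sub (integrable_const _)
  have e2 : ∫ x : ℝ, Complex.I * ((t * x : ℝ) : ℂ) ∂ν = 0 := by
    rw [integral_const_mul, integral_complex_ofReal, integral_const_mul, h0]
    simp
  have e1 : ∫ x : ℝ, (Complex.exp (-(Complex.I * ((t * x : ℝ) : ℂ))) - 1) ∂ν = cw ν t - 1 := by
    rw [integral_sub i1 (integrable_const _)]
    simp [cw]
  rw [integral_add i3 i2, e1, e2, add_zero]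

/-- the characteristic function near zero -/
lemma tendsto_cw (h2 : Integrable (fun x : ℝ => x ^ 2) ν) (h0 : ∫ x : ℝ, x ∂ν = 0)
    (h1 : ∫ x : ℝ, x ^ 2 ∂ν = 1) (s : ℕ → ℝ)
    (hs : Tendsto (fun N : ℕ => (N : ℝ) * s N ^ 2) atTop (𝓝 1)) (q : ℝ) :
    Tendsto (fun N : ℕ => (N : ℂ) * (cw ν (s N * q) - 1)) atTop (𝓝 (-((q ^ 2 / 2 : ℝ) : ℂ))) := by
  have hlim : -((q ^ 2 / 2 : ℝ) : ℂ) = ∫ x : ℝ, -((q ^ 2 / 2 * x ^ 2 : ℝ) : ℂ) ∂ν := by
    rw [integral_neg, integral_complex_ofReal, integral_const_mul, h1, mul_one]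
  rw [hlim]
  have he : ∀ N : ℕ, (N : ℂ) * (cw ν (s N * q) - 1)
      = ∫ x : ℝ, (N : ℂ) * (Complex.exp (-(Complex.I * ((s N * q * x : ℝ) : ℂ))) - 1
      + Complex.I * ((s N * q * x : ℝ) : ℂ)) ∂ν := by
    intro N
    rw [cw_sub_one ν h2 h0, integral_const_mul]
  simp_rw [he]
  refine tendsto_integral_filter_of_dominated_convergence (fun x => 6 * q ^ 2 * x ^ 2) ?_ ?_ ?_ ?_
  · refine Filter.Eventually.of_forall fun N => Continuous.aestronglyMeasurable ?_
    fun_prop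
  · have hb : ∀ᶠ N : ℕ in atTop, (N : ℝ) * s N ^ 2 < 2 := hs.eventually_lt_const (by norm_num)
    filter_upwards [hb] with N hN
    refine Filter.Eventually.of_forall fun x => ?_
    rw [norm_mul, Complex.norm_natCast]
    have h3 := exp_second_order (s N * q * x)
    have hN0 : (0 : ℝ) ≤ N := Nat.cast_nonneg _
    calc (N : ℝ) * ‖Complex.exp (-(Complex.I * ((s N * q * x : ℝ) : ℂ))) - 1
          + Complex.I * ((s N * q * x : ℝ) : ℂ)‖ ≤ N * (3 * (s N * q * x) ^ 2) := by gcongr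
      _ = (N * s N ^ 2) * (3 * (q ^ 2 * x ^ 2)) := by ring
      _ ≤ 2 * (3 * (q ^ 2 * x ^ 2)) := by
          apply mul_le_mul_of_nonneg_right hN.le; positivity
      _ = 6 * q ^ 2 * x ^ 2 := by ring
  · exact h2.const_mul _
  · refine Filter.Eventually.of_forall fun x => ?_
    have hs0 := tendsto_s_zero s hs
    have hθ : Tendsto (fun N : ℕ => s N * q * x) atTop (𝓝 0) := by
      have := (hs0.mul_const q).mul_const x
      simpa using this
    have hq : Tendsto (fun N : ℕ => ((N : ℝ) * s N ^ 2) * (q ^ 2 / 2 * x ^ 2)) atTop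
        (𝓝 (q ^ 2 / 2 * x ^ 2)) := by
      have := hs.mul_const (q ^ 2 / 2 * x ^ 2)
      rwa [one_mul] at this
    have hq' : Tendsto (fun N : ℕ => -((((N : ℝ) * s N ^ 2) * (q ^ 2 / 2 * x ^ 2) : ℝ) : ℂ)) atTop
        (𝓝 (-((q ^ 2 / 2 * x ^ 2 : ℝ) : ℂ))) :=
      ((Complex.continuous_ofReal.tendsto _).comp hq).neg
    have hrem : Tendsto (fun N : ℕ => (N : ℂ) * (Complex.exp (-(Complex.I * ((s N * q * x : ℝ) : ℂ)))
        - 1 + Complex.I * ((s N * q * x : ℝ) : ℂ))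
        - (-((((N : ℝ) * s N ^ 2) * (q ^ 2 / 2 * x ^ 2) : ℝ) : ℂ))) atTop (𝓝 0) := by
      rw [tendsto_zero_iff_norm_tendsto_zero]
      have hb : Tendsto (fun N : ℕ => (((N : ℝ) * s N ^ 2) * (q ^ 2 * x ^ 2)) * |s N * q * x|)
          atTop (𝓝 0) := by
        have h5 := (hs.mul_const (q ^ 2 * x ^ 2)).mul hθ.abs
        simpa using h5
      refine squeeze_zero' (Eventually.of_forall fun _ => norm_nonneg _) ?_ hb
      have h6 : ∀ᶠ N : ℕ in atTop, |s N * q * x| < 1 := by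
        have := hθ.abs
        rw [abs_zero] at this
        exact this.eventually_lt_const one_pos
      filter_upwards [h6] with N hN
      have h7 := exp_third_order hN.le
      have h8 : (N : ℂ) * (Complex.exp (-(Complex.I * ((s N * q * x : ℝ) : ℂ)))
          - 1 + Complex.I * ((s N * q * x : ℝ) : ℂ))
          - (-((((N : ℝ) * s N ^ 2) * (q ^ 2 / 2 * x ^ 2) : ℝ) : ℂ))
          = (N : ℂ) * (Complex.exp (-(Complex.I * ((s N * q * x : ℝ) : ℂ)))
          - 1 + Complex.I * ((s N * q * x : ℝ) : ℂ) + (((s N * q * x) ^ 2 / 2 : ℝ) : ℂ)) := by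
        push_cast
        ring
      rw [h8, norm_mul, Complex.norm_natCast]
      have hN0 : (0 : ℝ) ≤ N := Nat.cast_nonneg _
      calc (N : ℝ) * ‖_‖ ≤ N * |s N * q * x| ^ 3 := by gcongr
        _ = ((N : ℝ) * |s N * q * x| ^ 2) * |s N * q * x| := by ring
        _ = (((N : ℝ) * s N ^ 2) * (q ^ 2 * x ^ 2)) * |s N * q * x| := by
            rw [sq_abs]; ring
    have := hrem.add hq'
    rw [zero_add] at this
    refine this.congr fun N => ?_
    ring

lemma tendsto_of_nat_mul {a : ℕ → ℂ} {c : ℂ}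
    (h : Tendsto (fun N : ℕ => (N : ℂ) * (a N - 1)) atTop (𝓝 c)) : Tendsto a atTop (𝓝 1) := by
  have hinv : Tendsto (fun N : ℕ => ((N : ℂ))⁻¹) atTop (𝓝 0) :=
    tendsto_inv_atTop_nhds_zero_nat (𝕜 := ℂ)
  have h1 := (hinv.mul h).add_const 1
  rw [zero_mul, zero_add] at h1
  refine h1.congr' ?_
  filter_upwards [eventually_gt_atTop 0] with N hN
  have : (N : ℂ) ≠ 0 := by exact_mod_cast hN.ne'
  field_simp
  ring

lemma tendsto_prod_sub_one {ι : Type*} (S : Finset ι) (a : ι → ℕ → ℂ) (c : ι → ℂ)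
    (h : ∀ i, Tendsto (fun N : ℕ => (N : ℂ) * (a i N - 1)) atTop (𝓝 (c i))) :
    Tendsto (fun N : ℕ => (N : ℂ) * ((∏ i ∈ S, a i N) - 1)) atTop (𝓝 (∑ i ∈ S, c i)) := by
  classical
  induction S using Finset.induction_on with
  | empty => simp
  | insert i S hi ih =>
    rw [Finset.sum_insert hi]
    have h1 : Tendsto (a i) atTop (𝓝 1) := tendsto_of_nat_mul (h i)
    have h2 := (h i).add (h1.mul ih)
    rw [one_mul] at h2
    refine h2.congr fun N => ?_
    rw [Finset.prod_insert hi]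
    ring

/-- convergence of product functionals -/
theorem tendsto_FN_T (h2 : Integrable (fun x : ℝ => x ^ 2) ν) (h0 : ∫ x : ℝ, x ∂ν = 0)
    (h1 : ∫ x : ℝ, x ^ 2 ∂ν = 1) (γ β : ℕ → ℝ) (p : ℕ) (h : LTN ν γ β p) (s : ℕ → ℝ)
    (hs : Tendsto (fun N : ℕ => (N : ℝ) * s N ^ 2) atTop (𝓝 1)) {m : ℕ}
    (q : Fin m → CP p → ℝ) :
    Tendsto (fun N => FN ν γ β p N (s N) (fun _ x => ∏ i, cw ν (s N * q i x))) atTop
      (𝓝 (∏ i, Complex.exp (-(1 / 2 * ∑ y, gg γ β p y * ((q i y ^ 2 : ℝ) : ℂ))))) := by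
  have h3 := tendsto_FN_exp ν γ β p h s hs
    (fun N x => (∏ i, cw ν (s N * q i x)) - 1)
    (fun x => ∑ i, -((q i x ^ 2 / 2 : ℝ) : ℂ)) (by
      intro y
      exact tendsto_prod_sub_one univ (fun i N => cw ν (s N * q i y)) _
        (fun i => tendsto_cw ν h2 h0 h1 s hs (q i y)))
  have h4 : Complex.exp (∑ y, gg γ β p y * ∑ i, -((q i y ^ 2 / 2 : ℝ) : ℂ))
      = ∏ i, Complex.exp (-(1 / 2 * ∑ y, gg γ β p y * ((q i y ^ 2 : ℝ) : ℂ))) := by
    rw [← Complex.exp_sum]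
    congr 1
    simp_rw [mul_sum, ← sum_neg_distrib]
    rw [Finset.sum_comm]
    refine sum_congr rfl fun i _ => sum_congr rfl fun y _ => ?_
    push_cast
    ring
  rw [h4] at h3
  refine h3.congr fun N => ?_
  congr 1
  funext j x
  ring

lemma LTN_zero (γ β : ℕ → ℝ) : LTN ν γ β 0 := by
  intro m y s _
  have h : ∀ N, MN ν γ β 0 m N (s N) y = ∏ i, gg γ β 0 (y i) := by
    intro N
    unfold MN FN GK
    have hq : ∀ X : Fin (m + N) → CP 0, ∏ e : Pair (m + N), kr ν γ 0 (s N) (X e.1.1) (X e.1.2)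
        = 1 := by
      intro X
      refine prod_eq_one fun e _ => ?_
      unfold kr
      have h1 : qq γ 0 (X e.1.1) (X e.1.2) = 0 := by simp [qq]
      rw [h1, mul_zero, cw_zero]
    simp_rw [hq, mul_one]
    have h4 := (Finset.prod_univ_sum (fun _ : Fin (m + N) => (univ : Finset (CP 0)))
      (fun j x => wgt β 0 x * (Fin.append (fun i x => if x = y i then (1 : ℂ) else 0)
        (fun _ _ => (1 : ℂ)) j : CP 0 → ℂ) x))
    rw [Fintype.piFinset_univ] at h4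
    rw [← h4, Fin.prod_univ_add]
    simp only [Fin.append_left, Fin.append_right, mul_one, sum_wgt_zero, prod_const_one, mul_ite,
      mul_zero, sum_ite_eq', mem_univ, if_true]
    rfl
  simp_rw [h]
  exact tendsto_const_nhds

lemma MN_succ (γ β : ℕ → ℝ) (p m N : ℕ) (s : ℝ) (y : Fin m → CP (p + 1)) :
    MN ν γ β (p + 1) m N s y = (∏ i, wgt β (p + 1) (y i)) *
      ((∏ e : Pair m, kr ν γ (p + 1) s (y e.1.1) (y e.1.2)) *
      FN ν γ β p N s (fun _ x => ∏ i, cw ν (s * qh γ p (ini (y i)) x))) := by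
  unfold MN
  rw [FN, GK_add]
  rw [sum_eq_single y]
  · simp only [Fin.append_left, Fin.append_right, if_true, mul_one, one_mul]
    congr 2
    have h := FN_succ ν γ β p N s (fun _ x => ∏ i, cw ν (s * qh γ p (ini (y i)) x))
    refine Eq.trans ?_ h
    rfl
  · intro X _ hX
    obtain ⟨i, hi⟩ := Function.ne_iff.1 hX
    rw [prod_eq_zero (mem_univ i), zero_mul]
    rw [Fin.append_left, if_neg hi, mul_zero]
  · intro h; exact absurd (mem_univ _) h

theorem LTN_succ (h2 : Integrable (fun x : ℝ => x ^ 2) ν) (h0 : ∫ x : ℝ, x ∂ν = 0)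
    (h1 : ∫ x : ℝ, x ^ 2 ∂ν = 1) (γ β : ℕ → ℝ) (p : ℕ) (h : LTN ν γ β p) :
    LTN ν γ β (p + 1) := by
  intro m y s hs
  simp_rw [MN_succ]
  have h3 := tendsto_FN_T ν h2 h0 h1 γ β p h s hs (fun i x => qh γ p (ini (y i)) x)
  have h4 : Tendsto (fun N : ℕ => ∏ e : Pair m, kr ν γ (p + 1) (s N) (y e.1.1) (y e.1.2)) atTop
      (𝓝 (∏ _e : Pair m, 1)) := by
    refine tendsto_finsetProd _ fun e _ => ?_
    exact tendsto_of_nat_mul (tendsto_cw ν h2 h0 h1 s hs _)
  have h5 := (h4.mul h3).const_mul (∏ i, wgt β (p + 1) (y i))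
  refine h5.trans (le_of_eq ?_)
  congr 1
  rw [prod_const_one, one_mul, ← prod_mul_distrib]
  rfl

theorem LTN_all (h2 : Integrable (fun x : ℝ => x ^ 2) ν) (h0 : ∫ x : ℝ, x ∂ν = 0)
    (h1 : ∫ x : ℝ, x ^ 2 ∂ν = 1) (γ β : ℕ → ℝ) (p : ℕ) : LTN ν γ β p := by
  induction p with
  | zero => exact LTN_zero ν γ β
  | succ p ih => exact LTN_succ ν h2 h0 h1 γ β p ih

end Vale.Agent.P367.H84.U
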