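import Vale.Agent.P367.H84.U3

/-!
# P367 : universality in the disorder, the limiting energy (helper84)
-/

set_option linter.all false

namespace Vale.Agent.P367.H84.U

open Finset ComplexConjugate MeasureTheory ProbabilityTheory Filter Topology
open Vale.Agent.P367.Gap Vale.Agent.P367.Lim Vale.Agent.P367.NI

/-- first moment against the character -/
noncomputable def dw (ν : Measure ℝ) (t : ℝ) : ℂ :=
  ∫ x : ℝ, (x : ℂ) * Complex.exp (-(Complex.I * ((t * x : ℝ) : ℂ))) ∂ν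

variable (ν : Measure ℝ) [IsProbabilityMeasure ν]

lemma integrable_mul_exp (hi : Integrable (fun x : ℝ => x) ν) (t : ℝ) :
    Integrable (fun x : ℝ => (x : ℂ) * Complex.exp (-(Complex.I * ((t * x : ℝ) : ℂ)))) ν := by
  refine hi.norm.mono' ?_ ?_
  · refine Continuous.aestronglyMeasurable ?_
    fun_prop
  · refine Filter.Eventually.of_forall fun x => ?_
    rw [norm_mul, norm_exp_neg_I, mul_one, Complex.norm_real]

lemma tendsto_dw (h2 : Integrable (fun x : ℝ => x ^ 2) ν) (h0 : ∫ x : ℝ, x ∂ν = 0)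
    (h1 : ∫ x : ℝ, x ^ 2 ∂ν = 1) (s : ℕ → ℝ)
    (hs : Tendsto (fun N : ℕ => (N : ℝ) * s N ^ 2) atTop (𝓝 1)) (q : ℝ) :
    Tendsto (fun N : ℕ => (N : ℂ) * ((s N : ℂ) * dw ν (s N * q))) atTop
      (𝓝 (-(Complex.I * (q : ℂ)))) := by
  have hi := integrable_id_of_sq ν h2
  have hlim : -(Complex.I * (q : ℂ)) = ∫ x : ℝ, -(Complex.I * ((q * x ^ 2 : ℝ) : ℂ)) ∂ν := by
    rw [integral_neg, integral_const_mul, integral_complex_ofReal, integral_const_mul, h1,
      mul_one]
  rw [hlim]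
  have hz : ∫ x : ℝ, (x : ℂ) ∂ν = 0 := by
    rw [integral_complex_ofReal, h0]; simp
  have he : ∀ N : ℕ, (N : ℂ) * ((s N : ℂ) * dw ν (s N * q))
      = ∫ x : ℝ, (N : ℂ) * ((s N : ℂ) * ((x : ℂ) *
        (Complex.exp (-(Complex.I * ((s N * q * x : ℝ) : ℂ))) - 1))) ∂ν := by
    intro N
    rw [integral_const_mul, integral_const_mul]
    congr 2
    have e1 : ∀ x : ℝ, (x : ℂ) * (Complex.exp (-(Complex.I * ((s N * q * x : ℝ) : ℂ))) - 1)
        = (x : ℂ) * Complex.exp (-(Complex.I * ((s N * q * x : ℝ) : ℂ))) - (x : ℂ) := by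
      intro x; ring
    simp_rw [e1]
    have i2 : Integrable (fun x : ℝ => (x : ℂ)) ν := hi.ofReal
    rw [integral_sub (integrable_mul_exp ν hi _) i2, hz, sub_zero]
    rfl
  simp_rw [he]
  refine tendsto_integral_filter_of_dominated_convergence (fun x => 8 * |q| * x ^ 2) ?_ ?_ ?_ ?_
  · refine Filter.Eventually.of_forall fun N => Continuous.aestronglyMeasurable ?_
    fun_prop
  · have hb : ∀ᶠ N : ℕ in atTop, (N : ℝ) * s N ^ 2 < 2 := hs.eventually_lt_const (by norm_num)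
    filter_upwards [hb] with N hN
    refine Filter.Eventually.of_forall fun x => ?_
    rw [norm_mul, norm_mul, norm_mul, Complex.norm_natCast, Complex.norm_real, Complex.norm_real]
    have h3 : ‖Complex.exp (-(Complex.I * ((s N * q * x : ℝ) : ℂ))) - 1‖ ≤ 4 * |s N * q * x| := by
      rcases le_total |s N * q * x| 1 with h | h
      · have h4 := exp_second_order (s N * q * x)
        have h5 : ‖Complex.I * ((s N * q * x : ℝ) : ℂ)‖ = |s N * q * x| := by
          rw [norm_mul, Complex.norm_I, one_mul, Complex.norm_real, Real.norm_eq_abs]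
        have h6 : ‖Complex.exp (-(Complex.I * ((s N * q * x : ℝ) : ℂ))) - 1‖
            ≤ ‖Complex.exp (-(Complex.I * ((s N * q * x : ℝ) : ℂ))) - 1
              + Complex.I * ((s N * q * x : ℝ) : ℂ)‖ + ‖Complex.I * ((s N * q * x : ℝ) : ℂ)‖ := by
          have := norm_sub_le (Complex.exp (-(Complex.I * ((s N * q * x : ℝ) : ℂ))) - 1
              + Complex.I * ((s N * q * x : ℝ) : ℂ)) (Complex.I * ((s N * q * x : ℝ) : ℂ))
          rwa [add_sub_cancel_right] at this
        have h7 : (s N * q * x) ^ 2 ≤ |s N * q * x| := by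
          rw [← sq_abs]
          nlinarith [abs_nonneg (s N * q * x)]
        rw [h5] at h6
        linarith
      · have h4 : ‖Complex.exp (-(Complex.I * ((s N * q * x : ℝ) : ℂ))) - 1‖ ≤ 1 + 1 := by
          refine (norm_sub_le _ _).trans ?_
          rw [norm_exp_neg_I, norm_one]
        linarith
    have hN0 : (0 : ℝ) ≤ N := Nat.cast_nonneg _
    have h8 : |s N * q * x| = |s N| * |q| * |x| := by rw [abs_mul, abs_mul]
    calc (N : ℝ) * (‖s N‖ * (‖x‖ * ‖Complex.exp (-(Complex.I * ((s N * q * x : ℝ) : ℂ))) - 1‖))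
        ≤ (N : ℝ) * (‖s N‖ * (‖x‖ * (4 * |s N * q * x|))) := by gcongr
      _ = ((N : ℝ) * |s N| ^ 2) * (4 * |q| * |x| ^ 2) := by
          rw [h8, Real.norm_eq_abs, Real.norm_eq_abs]; ring
      _ = ((N : ℝ) * s N ^ 2) * (4 * |q| * x ^ 2) := by rw [sq_abs, sq_abs]
      _ ≤ 2 * (4 * |q| * x ^ 2) := by
          apply mul_le_mul_of_nonneg_right hN.le; positivity
      _ = 8 * |q| * x ^ 2 := by ring
  · exact h2.const_mul _
  · refine Filter.Eventually.of_forall fun x => ?_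
    have hs0 := tendsto_s_zero s hs
    have hq : Tendsto (fun N : ℕ => ((N : ℝ) * s N ^ 2) * (q * x ^ 2)) atTop
        (𝓝 (q * x ^ 2)) := by
      have := hs.mul_const (q * x ^ 2)
      rwa [one_mul] at this
    have hq' : Tendsto (fun N : ℕ => -(Complex.I * (((((N : ℝ) * s N ^ 2) * (q * x ^ 2)) : ℝ) : ℂ)))
        atTop (𝓝 (-(Complex.I * ((q * x ^ 2 : ℝ) : ℂ)))) :=
      (((Complex.continuous_ofReal.tendsto _).comp hq).const_mul _).neg
    have hrem : Tendsto (fun N : ℕ => (N : ℂ) * ((s N : ℂ) * ((x : ℂ) *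
        (Complex.exp (-(Complex.I * ((s N * q * x : ℝ) : ℂ))) - 1)))
        - (-(Complex.I * (((((N : ℝ) * s N ^ 2) * (q * x ^ 2)) : ℝ) : ℂ)))) atTop (𝓝 0) := by
      rw [tendsto_zero_iff_norm_tendsto_zero]
      have hb : Tendsto (fun N : ℕ => (((N : ℝ) * s N ^ 2) * (3 * q ^ 2 * |x| ^ 3)) * |s N|)
          atTop (𝓝 0) := by
        have h5 := (hs.mul_const (3 * q ^ 2 * |x| ^ 3)).mul hs0.abs
        simpa using h5
      refine squeeze_zero (fun _ => norm_nonneg _) (fun N => ?_) hb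
      have h7 := exp_second_order (s N * q * x)
      have h8 : (N : ℂ) * ((s N : ℂ) * ((x : ℂ) *
          (Complex.exp (-(Complex.I * ((s N * q * x : ℝ) : ℂ))) - 1)))
          - (-(Complex.I * (((((N : ℝ) * s N ^ 2) * (q * x ^ 2)) : ℝ) : ℂ)))
          = (N : ℂ) * ((s N : ℂ) * ((x : ℂ) * (Complex.exp (-(Complex.I * ((s N * q * x : ℝ) : ℂ)))
          - 1 + Complex.I * ((s N * q * x : ℝ) : ℂ)))) := by
        push_cast
        ring
      rw [h8, norm_mul, norm_mul, norm_mul, Complex.norm_natCast, Complex.norm_real,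
        Complex.norm_real]
      have hN0 : (0 : ℝ) ≤ N := Nat.cast_nonneg _
      calc (N : ℝ) * (‖s N‖ * (‖x‖ * ‖_‖))
          ≤ (N : ℝ) * (‖s N‖ * (‖x‖ * (3 * (s N * q * x) ^ 2))) := by gcongr
        _ = ((N : ℝ) * |s N| ^ 2) * (3 * q ^ 2 * |x| ^ 3) * |s N| := by
            rw [Real.norm_eq_abs, Real.norm_eq_abs]
            have e1 : (s N * q * x) ^ 2 = |s N| ^ 2 * q ^ 2 * |x| ^ 2 := by
              rw [sq_abs, sq_abs]; ring
            rw [e1]; ring
        _ = (((N : ℝ) * s N ^ 2) * (3 * q ^ 2 * |x| ^ 3)) * |s N| := by rw [sq_abs]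
    have := hrem.add hq'
    rw [zero_add] at this
    refine this.congr fun N => ?_
    ring

lemma integrable_eval_pi {ι : Type*} [Fintype ι] (hi : Integrable (fun x : ℝ => x) ν) (e : ι) :
    Integrable (fun J : ι → ℝ => J e) (Measure.pi fun _ => ν) :=
  (measurePreserving_eval (fun _ : ι => ν) e).integrable_comp_of_integrable hi

/-- averages of a linear form against a character -/
lemma pi_lin {ι : Type*} [Fintype ι] [DecidableEq ι] (hi : Integrable (fun x : ℝ => x) ν)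
    (a c : ι → ℝ) :
    ∫ J : ι → ℝ, (((∑ e, a e * J e : ℝ) : ℂ) *
      Complex.exp (-(Complex.I * ((∑ e, c e * J e : ℝ) : ℂ)))) ∂(Measure.pi fun _ => ν)
      = ∑ e, (a e : ℂ) * (dw ν (c e) * ∏ e' ∈ univ.erase e, cw ν (c e')) := by
  have h1 : ∀ J : ι → ℝ, (((∑ e, a e * J e : ℝ) : ℂ) *
      Complex.exp (-(Complex.I * ((∑ e, c e * J e : ℝ) : ℂ))))
      = ∑ e, (a e : ℂ) * ((J e : ℂ) * Complex.exp (-(Complex.I * ((∑ e, c e * J e : ℝ) : ℂ)))) := by
    intro J
    rw [Complex.ofReal_sum, sum_mul]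
    refine sum_congr rfl fun e _ => ?_
    push_cast
    ring
  simp_rw [h1]
  rw [integral_finsetSum]
  · refine sum_congr rfl fun e _ => ?_
    rw [integral_const_mul]
    congr 1
    have h2 : ∀ J : ι → ℝ, (J e : ℂ) * Complex.exp (-(Complex.I * ((∑ e, c e * J e : ℝ) : ℂ)))
        = ∏ e', (if e' = e then (J e' : ℂ) * Complex.exp (-(Complex.I * ((c e' * J e' : ℝ) : ℂ)))
          else Complex.exp (-(Complex.I * ((c e' * J e' : ℝ) : ℂ)))) := by
      intro J
      have h3 : Complex.exp (-(Complex.I * ((∑ e, c e * J e : ℝ) : ℂ)))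
          = ∏ e', Complex.exp (-(Complex.I * ((c e' * J e' : ℝ) : ℂ))) := by
        rw [← Complex.exp_sum]
        congr 1
        push_cast
        rw [mul_sum, ← sum_neg_distrib]
      rw [h3, ← mul_prod_erase univ _ (mem_univ e), ← mul_prod_erase univ (fun e' => if e' = e then
        (J e' : ℂ) * Complex.exp (-(Complex.I * ((c e' * J e' : ℝ) : ℂ)))
          else Complex.exp (-(Complex.I * ((c e' * J e' : ℝ) : ℂ)))) (mem_univ e), if_pos rfl,
        ← mul_assoc]
      congr 1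
      refine prod_congr rfl fun e' he' => ?_
      rw [if_neg (mem_erase.1 he').1]
    simp_rw [h2]
    rw [integral_fintype_prod_eq_prod (f := fun e' (x : ℝ) => (if e' = e then
      (x : ℂ) * Complex.exp (-(Complex.I * ((c e' * x : ℝ) : ℂ)))
          else Complex.exp (-(Complex.I * ((c e' * x : ℝ) : ℂ)))))]
    rw [← mul_prod_erase univ _ (mem_univ e)]
    simp only [if_true]
    congr 1
    refine prod_congr rfl fun e' he' => ?_
    simp only [if_neg (mem_erase.1 he').1]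
    rfl
  · intro e _
    refine Integrable.const_mul ?_ _
    refine (integrable_eval_pi ν hi e).norm.mono' ?_ ?_
    · refine Continuous.aestronglyMeasurable ?_
      fun_prop
    · refine Filter.Eventually.of_forall fun J => ?_
      rw [norm_mul, norm_exp_neg_I, mul_one, Complex.norm_real]

variable {n : ℕ}

/-- the averaged energy as a contour sum -/
lemma mean_avg' (hi : Integrable (fun x : ℝ => x) ν) (p : ℕ) (γ β : Fin p → ℝ) (γ' β' : ℕ → ℝ)
    (hγ : ∀ k : Fin p, γ' k = γ k) (hβ : ∀ k : Fin p, β' k = β k) :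
    ((∫ J, qaoaMean J p γ β ∂(Measure.pi fun _ : Pair n => ν) : ℝ) : ℂ)
      = ∑ X : Fin n → CP p, (∏ j, wgt β' p (X j)) *
        ∑ e : Pair n, ((((Real.sqrt n)⁻¹ * (lst (X e.1.1) * lst (X e.1.2)) : ℝ)) : ℂ) *
        (dw ν ((Real.sqrt n)⁻¹ * qq γ' p (X e.1.1) (X e.1.2)) *
          ∏ e' ∈ univ.erase e, kr ν γ' p (Real.sqrt n)⁻¹ (X e'.1.1) (X e'.1.2)) := by
  rw [← integral_complex_ofReal]
  simp_rw [mean_contour _ p γ β γ' β' hγ hβ]
  rw [integral_finsetSum]
  · refine sum_congr rfl fun X _ => ?_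
    rw [integral_const_mul]
    congr 1
    rw [pi_lin ν hi]
    rfl
  · intro X _
    refine Integrable.const_mul ?_ _
    have hl : Integrable (fun J : Pair n → ℝ =>
        ∑ e : Pair n, ((Real.sqrt n)⁻¹ * (lst (X e.1.1) * lst (X e.1.2))) * J e)
        (Measure.pi fun _ => ν) :=
      integrable_finsetSum _ fun e _ => (integrable_eval_pi ν hi e).const_mul _
    refine (hl.norm).mono' ?_ ?_
    · refine Continuous.aestronglyMeasurable ?_
      fun_prop
    · refine Filter.Eventually.of_forall fun J => ?_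
      rw [norm_mul, norm_exp_neg_I, mul_one, Complex.norm_real]

/-- one pair of sites in the contour sum -/
lemma pair_term' (γ β : ℕ → ℝ) (p N : ℕ) (s : ℝ) (h : CP p → CP p → ℂ) (i j : Fin (N + 2))
    (hij : i ≠ j) :
    ∑ X : Fin (N + 2) → CP p, (∏ k, wgt β p (X k)) * (h (X i) (X j) *
      ∏ e : Pair (N + 2), kr ν γ p s (X e.1.1) (X e.1.2))
      = ∑ y : Fin 2 → CP p, h (y 0) (y 1) * MN ν γ β p 2 N s y := by
  classical
  obtain ⟨e₀, he0', he1'⟩ := exists_equiv i j hij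
  let e : Fin (2 + N) ≃ Fin (N + 2) := finSumFinEquiv.symm.trans e₀
  have he0 : e (Fin.castAdd N 0) = i := by
    simp only [e, Equiv.trans_apply, finSumFinEquiv_symm_apply_castAdd]; exact he0'
  have he1 : e (Fin.castAdd N 1) = j := by
    simp only [e, Equiv.trans_apply, finSumFinEquiv_symm_apply_castAdd]; exact he1'
  have h1 : ∀ y : Fin 2 → CP p, MN ν γ β p 2 N s y
      = ∑ X : Fin (N + 2) → CP p, (∏ k, wgt β p (X k)) *
        ((if (fun a : Fin 2 => X (e (Fin.castAdd N a))) = y then 1 else 0) *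
        ∏ e : Pair (N + 2), kr ν γ p s (X e.1.1) (X e.1.2)) := by
    intro y
    have h2 := GK_equiv β p e
      (fun k x => Fin.append (fun a x => if x = y a then (1 : ℂ) else 0) (fun _ _ => (1 : ℂ))
        (e.symm k) x) (fun _ _ => kr ν γ p s) (fun _ _ x y => kr_comm ν γ p s x y)
    unfold MN FN
    simp only [Equiv.symm_apply_apply] at h2
    refine Eq.trans h2.symm ?_
    unfold GK
    refine sum_congr rfl fun X _ => ?_
    rw [prod_mul_distrib, mul_assoc]
    congr 2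
    rw [← e.prod_comp]
    simp only [Equiv.symm_apply_apply]
    rw [Fin.prod_univ_add]
    simp only [Fin.append_left, Fin.append_right, prod_const_one, mul_one]
    by_cases hy : (fun a : Fin 2 => X (e (Fin.castAdd N a))) = y
    · rw [if_pos hy]
      refine prod_eq_one fun a _ => ?_
      rw [if_pos (congrFun hy a)]
    · rw [if_neg hy]
      obtain ⟨a, ha⟩ := Function.ne_iff.1 hy
      exact prod_eq_zero (mem_univ a) (if_neg ha)
  simp_rw [h1, mul_sum]
  rw [Finset.sum_comm]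
  refine sum_congr rfl fun X _ => ?_
  rw [sum_eq_single (fun a : Fin 2 => X (e (Fin.castAdd N a)))]
  · simp only [if_true, he0, he1]
    ring
  · intro y _ hy
    rw [if_neg (fun h => hy h.symm)]
    ring
  · intro h; exact absurd (mem_univ _) h

/-- the averaged energy through two-site marginals -/
lemma mean_marg' (hi : Integrable (fun x : ℝ => x) ν) (N : ℕ) (p : ℕ) (γ β : Fin p → ℝ)
    (γ' β' : ℕ → ℝ) (hγ : ∀ k : Fin p, γ' k = γ k) (hβ : ∀ k : Fin p, β' k = β k)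
    (hne : ∀ x y : CP p, kr ν γ' p (Real.sqrt ((N + 2 : ℕ) : ℝ))⁻¹ x y ≠ 0) :
    ((((N + 2 : ℕ) : ℝ)⁻¹ * ∫ J, qaoaMean J p γ β ∂(Measure.pi fun _ : Pair (N + 2) => ν) : ℝ) : ℂ)
      = ∑ y : Fin 2 → CP p, (((lst (y 0) * lst (y 1) : ℝ) : ℂ) *
        (((((N : ℂ) + 1) / 2) * (((Real.sqrt ((N + 2 : ℕ) : ℝ))⁻¹ : ℝ) : ℂ) *
          dw ν ((Real.sqrt ((N + 2 : ℕ) : ℝ))⁻¹ * qq γ' p (y 0) (y 1))) /
          kr ν γ' p (Real.sqrt ((N + 2 : ℕ) : ℝ))⁻¹ (y 0) (y 1))) *
        MN ν γ' β' p 2 N (Real.sqrt ((N + 2 : ℕ) : ℝ))⁻¹ y := by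
  rw [Complex.ofReal_mul, mean_avg' ν hi p γ β γ' β' hγ hβ]
  set s : ℝ := (Real.sqrt ((N + 2 : ℕ) : ℝ))⁻¹ with hs
  let h : CP p → CP p → ℂ := fun x y => ((lst x * lst y : ℝ) : ℂ) *
    (dw ν (s * qq γ' p x y) / kr ν γ' p s x y)
  set S : ℂ := ∑ y : Fin 2 → CP p, h (y 0) (y 1) * MN ν γ' β' p 2 N s y with hS
  have h1 : ∑ X : Fin (N + 2) → CP p, (∏ j, wgt β' p (X j)) *
        ∑ e : Pair (N + 2), (((s * (lst (X e.1.1) * lst (X e.1.2)) : ℝ)) : ℂ) *
        (dw ν (s * qq γ' p (X e.1.1) (X e.1.2)) *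
          ∏ e' ∈ univ.erase e, kr ν γ' p s (X e'.1.1) (X e'.1.2))
      = ∑ _e : Pair (N + 2), (s : ℂ) * S := by
    have h2 : ∀ e : Pair (N + 2), (s : ℂ) * S
        = ∑ X : Fin (N + 2) → CP p, (s : ℂ) * ((∏ k, wgt β' p (X k)) *
          (h (X e.1.1) (X e.1.2) * ∏ e : Pair (N + 2), kr ν γ' p s (X e.1.1) (X e.1.2))) := by
      intro e
      rw [← mul_sum, pair_term' ν γ' β' p N s h e.1.1 e.1.2 (ne_of_lt e.2)]
    rw [sum_congr rfl fun e _ => h2 e, Finset.sum_comm]
    refine sum_congr rfl fun X _ => ?_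
    rw [mul_sum]
    refine sum_congr rfl fun e _ => ?_
    rw [← mul_prod_erase univ (fun e : Pair (N + 2) => kr ν γ' p s (X e.1.1) (X e.1.2))
      (mem_univ e)]
    have hk := hne (X e.1.1) (X e.1.2)
    simp only [h]
    push_cast
    field_simp
  rw [h1, sum_const, card_univ, nsmul_eq_mul]
  have h3 : ((Fintype.card (Pair (N + 2)) : ℕ) : ℂ) = ((N : ℂ) + 2) * ((N : ℂ) + 1) / 2 := by
    have := card_pair (N + 2)
    have h4 : (((Fintype.card (Pair (N + 2)) : ℕ) : ℝ) : ℂ)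
        = ((((N + 2 : ℕ) : ℝ) * (((N + 2 : ℕ) : ℝ) - 1) / 2 : ℝ) : ℂ) := by rw [this]
    rw [Complex.ofReal_natCast] at h4
    rw [h4]
    push_cast
    ring
  have h7 : ((N : ℂ) + 2) ≠ 0 := by
    have : ((N : ℝ) + 2) ≠ 0 := by positivity
    exact_mod_cast this
  have h8 : (((((N + 2 : ℕ) : ℝ))⁻¹ : ℝ) : ℂ) = ((N : ℂ) + 2)⁻¹ := by
    push_cast
    ring
  rw [h3, h8, hS, mul_sum, mul_sum, mul_sum]
  refine sum_congr rfl fun y _ => ?_
  simp only [h]
  field_simp

/-- **Universality of the limiting energy.** -/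
theorem value_tendsto (h2 : Integrable (fun x : ℝ => x ^ 2) ν) (h0 : ∫ x : ℝ, x ∂ν = 0)
    (h1 : ∫ x : ℝ, x ^ 2 ∂ν = 1) (p : ℕ) (γ β : Fin p → ℝ) :
    Tendsto (fun n : ℕ => (n : ℝ)⁻¹ * ∫ J, qaoaMean J p γ β ∂(Measure.pi fun _ : Pair n => ν))
      atTop (𝓝 (vLim p γ β)) := by
  have hi := integrable_id_of_sq ν h2
  have hv : vLim p γ β = enL (extA γ) (extA β) p :=
    tendsto_nhds_unique (tendsto_vLim p γ β)
      (qaoaValue_tendsto_enL p γ β (extA γ) (extA β) (extA_apply γ) (extA_apply β))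
  rw [hv, ← tendsto_add_atTop_iff_nat 2]
  set γ' := extA γ with hγ'
  set β' := extA β with hβ'
  let s : ℕ → ℝ := fun N => (Real.sqrt ((N + 2 : ℕ) : ℝ))⁻¹
  have hs : Tendsto (fun N : ℕ => (N : ℝ) * s N ^ 2) atTop (𝓝 1) := seq_s 2
  have hkr : ∀ x y : CP p, Tendsto (fun N : ℕ => kr ν γ' p (s N) x y) atTop (𝓝 1) := fun x y =>
    tendsto_of_nat_mul (tendsto_cw ν h2 h0 h1 s hs _)
  have hne : ∀ᶠ N : ℕ in atTop, ∀ x y : CP p, kr ν γ' p (s N) x y ≠ 0 := by
    rw [eventually_all]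
    intro x
    rw [eventually_all]
    intro y
    exact (hkr x y).eventually_ne one_ne_zero
  have hd : ∀ y : Fin 2 → CP p, Tendsto (fun N : ℕ => (((lst (y 0) * lst (y 1) : ℝ) : ℂ) *
        (((((N : ℂ) + 1) / 2) * ((s N : ℝ) : ℂ) * dw ν (s N * qq γ' p (y 0) (y 1))) /
          kr ν γ' p (s N) (y 0) (y 1))) * MN ν γ' β' p 2 N (s N) y) atTop
      (𝓝 (-(Complex.I * (1 / 2)) * (((hk γ' p (y 0) (y 1) : ℝ) : ℂ) *
        ∏ i, gg γ' β' p (y i)))) := by
    intro y
    have a1 := tendsto_dw ν h2 h0 h1 s hs (qq γ' p (y 0) (y 1))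
    have a2 : Tendsto (fun N : ℕ => ((((N : ℝ) + 1) / (2 * (N : ℝ)) : ℝ) : ℂ)) atTop
        (𝓝 (((1 / 2 : ℝ)) : ℂ)) := by
      refine (Complex.continuous_ofReal.tendsto _).comp ?_
      have h3 : Tendsto (fun N : ℕ => (1 / 2 : ℝ) + (1 / 2) * (1 / (N : ℝ))) atTop
          (𝓝 (1 / 2 + (1 / 2) * 0)) :=
        tendsto_const_nhds.add ((tendsto_one_div_atTop_nhds_zero_nat (𝕜 := ℝ)).const_mul _)
      rw [mul_zero, add_zero] at h3
      refine h3.congr' ?_
      filter_upwards [eventually_gt_atTop 0] with N hN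
      have : (N : ℝ) ≠ 0 := by positivity
      field_simp
    have a3 := ((((a2.mul a1).div (hkr (y 0) (y 1)) one_ne_zero).const_mul
      (((lst (y 0) * lst (y 1) : ℝ) : ℂ))).mul (LTN_all ν h2 h0 h1 γ' β' p 2 y s hs))
    refine (a3.congr' ?_).trans (le_of_eq ?_)
    · filter_upwards [eventually_gt_atTop 0] with N hN
      have : (N : ℂ) ≠ 0 := by exact_mod_cast hN.ne'
      simp only [Pi.div_apply]
      congr 2
      congr 1
      push_cast
      field_simp
    · congr 1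
      unfold hk
      push_cast
      ring
  have h3 : Tendsto (fun N : ℕ => ((((N + 2 : ℕ) : ℝ)⁻¹ *
      ∫ J, qaoaMean J p γ β ∂(Measure.pi fun _ : Pair (N + 2) => ν) : ℝ) : ℂ)) atTop
      (𝓝 ((enL γ' β' p : ℝ) : ℂ)) := by
    rw [← enL_eq, mul_sum]
    refine (tendsto_finsetSum univ fun y _ => hd y).congr' ?_
    filter_upwards [hne] with N hN
    exact (mean_marg' ν hi N p γ β γ' β' (extA_apply γ) (extA_apply β) hN).symm
  have h4 := (Complex.continuous_re.tendsto _).comp h3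
  rw [Complex.ofReal_re] at h4
  exact h4.congr fun N => Complex.ofReal_re _

end Vale.Agent.P367.H84.U
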