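import Vale.Agent.P367.H84.U4
import Vale.Agent.P367.H84.G2

/-!
# P367 : universality in the disorder, conclusion (helper84)
-/

set_option linter.all false

namespace Vale.Agent.P367.H84.U

open Finset MeasureTheory ProbabilityTheory Filter Topology
open Vale.Agent.P367.Gap Vale.Agent.P367.Lim

lemma sq_of_one (ν : Measure ℝ) (e2 : ∫ x : ℝ, x ^ 2 ∂ν = 1) :
    Integrable (fun x : ℝ => x ^ 2) ν := by
  by_contra h
  rw [integral_undef h] at e2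
  exact zero_ne_one e2

lemma mom_of (ν : Measure ℝ) [IsProbabilityMeasure ν] (e1 : ∫ x : ℝ, x ∂ν = 0)
    (e2 : ∫ x : ℝ, x ^ 2 ∂ν = 1) : Mom ν :=
  ⟨sq_of_one ν e2, integrable_id_of_sq ν (sq_of_one ν e2), e1, e2⟩

/-- one circuit for all coupling laws -/
theorem one_circuit
    (hf : ∀ ε : ℝ, 0 < ε → ∃ (p : ℕ) (γ β : Fin p → ℝ),
      ∀ᶠ n in atTop, groundValue n - ε ≤ qaoaValue n p γ β) :
    ∀ ε : ℝ, 0 < ε → ∃ (p : ℕ) (γ β : Fin p → ℝ), ∀ ν : Measure ℝ, IsProbabilityMeasure ν →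
      ∫ x : ℝ, x ∂ν = 0 → ∫ x : ℝ, x ^ 2 ∂ν = 1 →
      ∀ᶠ n : ℕ in atTop,
        (n : ℝ)⁻¹ * (∫ J, (⨆ s : Conf n, skEnergy J s) ∂(Measure.pi fun _ : Pair n => ν)) - ε ≤
          (n : ℝ)⁻¹ * ∫ J, qaoaMean J p γ β ∂(Measure.pi fun _ : Pair n => ν) := by
  intro ε hε
  obtain ⟨p, γ, β, h⟩ := hf (ε / 2) (half_pos hε)
  refine ⟨p, γ, β, fun ν hν e1 e2 => ?_⟩
  have hlim : Pstar - ε / 2 ≤ vLim p γ β :=
    le_of_tendsto_of_tendsto (tendsto_Pstar.sub_const _) (tendsto_vLim p γ β) h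
  have t1 := ground_tendsto tendsto_Pstar ν (mom_of ν e1 e2)
  have t2 := value_tendsto ν (sq_of_one ν e2) e1 e2 p γ β
  have t3 := t2.sub (t1.sub_const ε)
  have h4 : 0 < vLim p γ β - (Pstar - ε) := by linarith
  filter_upwards [t3.eventually_const_lt h4] with n hn
  linarith

end Vale.Agent.P367.H84.U
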