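import Vale.Agent.P367.H84.Conc

/-!
# P367 : Efron-Stein for a general law with second moment `1` (helper84)
-/

set_option linter.all false

open MeasureTheory ProbabilityTheory Filter Topology

namespace Vale.Agent.P367.H84.V

open Vale.Agent.P367.H84

/-- the law of `N` independent variables of law `m` -/
noncomputable abbrev mN (m : Measure ℝ) (N : ℕ) : Measure (Fin N → ℝ) := Measure.pi fun _ => m

variable {m : Measure ℝ} [IsProbabilityMeasure m] (hid : MemLp (id : ℝ → ℝ) 2 m)

include hid in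
lemma memLp_coord {ι : Type*} [Fintype ι] (i : ι) :
    MemLp (fun x : ι → ℝ => x i) 2 (Measure.pi fun _ : ι => m) :=
  hid.comp_measurePreserving (measurePreserving_eval (fun _ : ι => m) i)

include hid in
lemma memL {ι : Type*} [Fintype ι] {c : ℝ} {f : (ι → ℝ) → ℝ} (h : L1 c f) :
    MemLp f 2 (Measure.pi fun _ : ι => m) := by
  have a1 : MemLp (fun _ : ι → ℝ => |f 0|) 2 (Measure.pi fun _ : ι => m) :=
    memLp_const _
  have a2 : MemLp (fun x : ι → ℝ => ∑ i, |x i|) 2 (Measure.pi fun _ : ι => m) :=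
    memLp_finsetSum _ fun i _ => (memLp_coord hid i).abs
  have a3 : MemLp (fun x : ι → ℝ => c * ∑ i, |x i|) 2
      (Measure.pi fun _ : ι => m) := a2.const_mul c
  have h1 : MemLp (fun x : ι → ℝ => |f 0| + c * ∑ i, |x i|) 2
      (Measure.pi fun _ : ι => m) := a1.add a3
  refine h1.mono h.continuous.aestronglyMeasurable (Eventually.of_forall fun x => ?_)
  have h2 := h x 0
  simp only [Pi.zero_apply, sub_zero] at h2
  have h3 := abs_sub_abs_le_abs_sub (f x) (f 0)
  rw [Real.norm_eq_abs, Real.norm_eq_abs]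
  refine le_trans ?_ (le_abs_self _)
  linarith

include hid in
/-- one variable -/
lemma var_one (hs : ∫ x : ℝ, x ^ 2 ∂m = 1) {c : ℝ} (hc : 0 ≤ c) {G : ℝ → ℝ}
    (h : ∀ s t, |G s - G t| ≤ c * |s - t|) :
    MemLp G 2 m ∧ Var[G; m] ≤ c ^ 2 := by
  have hcont : Continuous G := by
    rw [continuous_iff_continuousAt]
    intro x
    unfold ContinuousAt
    rw [tendsto_iff_dist_tendsto_zero]
    have h1 : Tendsto (fun y : ℝ => c * |y - x|) (𝓝 x) (𝓝 (c * |x - x|)) := by
      apply Continuous.tendsto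
      fun_prop
    simp only [sub_self, abs_zero, mul_zero] at h1
    exact squeeze_zero (fun _ => dist_nonneg) (fun y => by rw [Real.dist_eq]; exact h y x) h1
  have hm : MemLp G 2 m := by
    have a1 : MemLp (fun _ : ℝ => |G 0|) 2 m := memLp_const _
    have a2 : MemLp (fun x : ℝ => |x|) 2 m := hid.abs
    have a3 : MemLp (fun x : ℝ => c * |x|) 2 m := a2.const_mul c
    have h1 : MemLp (fun x : ℝ => |G 0| + c * |x|) 2 m := a1.add a3
    refine h1.mono hcont.aestronglyMeasurable (Eventually.of_forall fun x => ?_)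
    have h2 := h x 0
    simp only [sub_zero] at h2
    have h3 := abs_sub_abs_le_abs_sub (G x) (G 0)
    rw [Real.norm_eq_abs, Real.norm_eq_abs]
    refine le_trans ?_ (le_abs_self _)
    linarith
  refine ⟨hm, ?_⟩
  have h1 : Var[G; m] = Var[fun x => G x - G 0; m] := by
    rw [variance_sub_const hm.aestronglyMeasurable]
  rw [h1]
  have h2 : MemLp (fun x => G x - G 0) 2 m := hm.sub (memLp_const _)
  refine (variance_le_expectation_sq h2.aestronglyMeasurable).trans ?_
  have h3 : ∫ x, (id x : ℝ) ^ 2 ∂m = 1 := by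
    simpa using hs
  calc ∫ x, ((fun x => G x - G 0) ^ 2) x ∂m
      ≤ ∫ x, c ^ 2 * (id x : ℝ) ^ 2 ∂m := by
        refine integral_mono h2.integrable_sq (hid.integrable_sq.const_mul _) fun x => ?_
        simp only [Pi.pow_apply, id_eq]
        have := h x 0
        rw [sub_zero] at this
        rw [← sq_abs, ← sq_abs x, ← mul_pow]
        gcongr
    _ = c ^ 2 := by rw [integral_const_mul, h3, mul_one]

include hid in
/-- **Efron-Stein** -/
theorem var_le (hs : ∫ x : ℝ, x ^ 2 ∂m = 1) {c : ℝ} (hc : 0 ≤ c) : ∀ (N : ℕ) (f : (Fin N → ℝ) → ℝ), L1 c f →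
    Var[f; mN m N] ≤ N * c ^ 2 := by
  intro N
  induction N with
  | zero =>
    intro f hf
    have h1 : f = fun _ => f 0 := by
      funext x
      rw [Subsingleton.elim x 0]
    have h2 : Var[f; mN m 0] = Var[fun x => f x - f 0; mN m 0] := by
      rw [variance_sub_const (memL hid hf).aestronglyMeasurable]
    have h3 : (fun x => f x - f 0) = 0 := by
      funext x
      rw [congrFun h1 x]
      simp
    rw [h2, h3, variance_zero]
    simp
  | succ N ih =>
    intro f hf
    have hf2 := memL hid hf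
    set e := MeasurableEquiv.piFinSuccAbove (fun _ : Fin (N + 1) => ℝ) 0 with he
    have hmp : MeasurePreserving e (mN m (N + 1)) (m.prod (mN m N)) :=
      measurePreserving_piFinSuccAbove (fun _ : Fin (N + 1) => m) 0
    set g : ℝ × (Fin N → ℝ) → ℝ := fun z => f (e.symm z) with hg
    have hgf : ∀ x, g (e x) = f x := fun x => by simp [hg]
    have hcons : ∀ t (y : Fin N → ℝ), e.symm (t, y) = Fin.cons t y := by
      intro t y
      rw [MeasurableEquiv.symm_apply_eq]
      rfl
    have hgd : ∀ t s (y y' : Fin N → ℝ), |g (t, y) - g (s, y')| ≤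
        c * (|t - s| + ∑ i, |y i - y' i|) := by
      intro t s y y'
      have := hf (Fin.cons t y) (Fin.cons s y')
      rw [Fin.sum_univ_succ] at this
      simp only [Fin.cons_zero, Fin.cons_succ] at this
      simp only [hg, hcons]
      exact this
    have hg2 : MemLp g 2 (m.prod (mN m N)) :=
      hf2.comp_measurePreserving (hmp.symm e)
    have hgt : ∀ t, L1 c (fun y => g (t, y)) := by
      intro t y y'
      have := hgd t t y y'
      rwa [sub_self, abs_zero, zero_add] at this
    set G : ℝ → ℝ := fun t => ∫ y, g (t, y) ∂(mN m N) with hG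
    have hGl : ∀ s t, |G s - G t| ≤ c * |s - t| := by
      intro s t
      have i1 := (memL hid (hgt s)).integrable (by norm_num)
      have i2 := (memL hid (hgt t)).integrable (by norm_num)
      have e1 : G s - G t = ∫ y, (g (s, y) - g (t, y)) ∂(mN m N) := (integral_sub i1 i2).symm
      rw [e1]
      have h2 := norm_integral_le_of_norm_le_const (μ := mN m N)
        (f := fun y => g (s, y) - g (t, y)) (C := c * |s - t|)
        (Eventually.of_forall fun y => by
          have := hgd s t y y
          simpa using this)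
      simpa using h2
    obtain ⟨hG2, hGv⟩ := var_one hid hs hc hGl
    have e1 : ∫ x, f x ∂(mN m (N + 1)) = ∫ t, G t ∂m := by
      have h1 : ∫ x, f x ∂(mN m (N + 1)) = ∫ z, g z ∂(m.prod (mN m N)) := by
        rw [← hmp.integral_comp' (g := g)]
        simp only [hgf]
      rw [h1, integral_prod _ (hg2.integrable (by norm_num))]
    have e2 : ∫ x, f x ^ 2 ∂(mN m (N + 1)) =
        ∫ t, (∫ y, g (t, y) ^ 2 ∂(mN m N)) ∂m := by
      have h1 : ∫ x, f x ^ 2 ∂(mN m (N + 1)) =
          ∫ z, g z ^ 2 ∂(m.prod (mN m N)) := by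
        rw [← hmp.integral_comp' (g := fun z => g z ^ 2)]
        simp only [hgf]
      rw [h1, integral_prod _ hg2.integrable_sq]
    have h3 : ∀ t, ∫ y, g (t, y) ^ 2 ∂(mN m N) ≤ N * c ^ 2 + G t ^ 2 := by
      intro t
      have h4 := ih (fun y => g (t, y)) (hgt t)
      rw [variance_eq_sub (memL hid (hgt t))] at h4
      simp only [Pi.pow_apply] at h4
      have : (∫ y, g (t, y) ∂(mN m N)) = G t := rfl
      rw [this] at h4
      linarith
    have i3 : Integrable (fun t => ∫ y, g (t, y) ^ 2 ∂(mN m N)) m :=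
      hg2.integrable_sq.integral_prod_left
    have h5 : ∫ t, (∫ y, g (t, y) ^ 2 ∂(mN m N)) ∂m ≤
        N * c ^ 2 + ∫ t, G t ^ 2 ∂m := by
      have h6 : ∫ t, (∫ y, g (t, y) ^ 2 ∂(mN m N)) ∂m ≤
          ∫ t, (N * c ^ 2 + G t ^ 2) ∂m :=
        integral_mono i3 ((integrable_const _).add hG2.integrable_sq) h3
      rw [integral_add (integrable_const _) hG2.integrable_sq, integral_const] at h6
      simpa using h6
    rw [variance_eq_sub hG2] at hGv
    rw [variance_eq_sub hf2]
    simp only [Pi.pow_apply] at hGv ⊢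
    rw [e1, e2]
    push_cast
    linarith

include hid in
/-- mean deviation -/
theorem dev_le (hs : ∫ x : ℝ, x ^ 2 ∂m = 1) {ι : Type} [Fintype ι] {c : ℝ} (hc : 0 ≤ c) {f : (ι → ℝ) → ℝ} (hf : L1 c f) :
    ∫ x, |f x - ∫ y, f y ∂(Measure.pi fun _ : ι => m)|
      ∂(Measure.pi fun _ : ι => m) ≤ Real.sqrt (Fintype.card ι * c ^ 2) := by
  set e := (Fintype.equivFin ι).symm with he
  set Φ := MeasurableEquiv.piCongrLeft (fun _ : ι => ℝ) e with hΦ
  have hmp : MeasurePreserving Φ (mN m (Fintype.card ι)) (Measure.pi fun _ : ι => m) :=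
    measurePreserving_piCongrLeft (fun _ : ι => m) e
  have hΦa : ∀ (x : Fin (Fintype.card ι) → ℝ) k, Φ x (e k) = x k := by
    intro x k
    exact Equiv.piCongrLeft_apply_apply (P := fun _ : ι => ℝ) e x k
  set g : (Fin (Fintype.card ι) → ℝ) → ℝ := fun x => f (Φ x) with hg
  have hgl : L1 c g := by
    intro x y
    refine (hf (Φ x) (Φ y)).trans (le_of_eq ?_)
    congr 1
    rw [← e.sum_comp]
    refine Finset.sum_congr rfl fun k _ => ?_
    rw [hΦa, hΦa]
  have e1 : ∫ y, f y ∂(Measure.pi fun _ : ι => m) =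
      ∫ x, g x ∂(mN m (Fintype.card ι)) := (hmp.integral_comp' f).symm
  have e2 : ∫ x, |f x - ∫ y, f y ∂(Measure.pi fun _ : ι => m)|
      ∂(Measure.pi fun _ : ι => m) =
      ∫ x, |g x - ∫ y, g y ∂(mN m (Fintype.card ι))| ∂(mN m (Fintype.card ι)) := by
    rw [e1]
    exact (hmp.integral_comp' (fun z => |f z - ∫ x, g x ∂(mN m (Fintype.card ι))|)).symm
  rw [e2]
  have hv := var_le hid hs hc _ g hgl
  have hm : MemLp (fun x => g x - ∫ y, g y ∂(mN m (Fintype.card ι))) 2
      (mN m (Fintype.card ι)) := (memL hid hgl).sub (memLp_const _)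
  have h1 := variance_nonneg (fun x => |g x - ∫ y, g y ∂(mN m (Fintype.card ι))|)
    (mN m (Fintype.card ι))
  have hm' : MemLp (fun x => |g x - ∫ y, g y ∂(mN m (Fintype.card ι))|) 2
      (mN m (Fintype.card ι)) := hm.abs
  rw [variance_eq_sub hm'] at h1
  simp only [Pi.pow_apply, sq_abs] at h1
  rw [variance_eq_integral (memL hid hgl).aemeasurable] at hv
  apply Real.le_sqrt_of_sq_le
  linarith

end Vale.Agent.P367.H84.V
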