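import Vale.Agent.P367.H84.V1
import Vale.Agent.P367.H84.Main
import Vale.Agent.P367.H84.UMain

/-!
# P367 : near-optimal strings for typical instances of a general coupling law (helper84)
-/

set_option linter.all false

open MeasureTheory ProbabilityTheory Filter Topology Matrix

namespace Vale.Agent.P367.H84.V

open Vale.Agent.P367.Gap Vale.Agent.P367.Lim Vale.Agent.P367.H84

variable {n : ℕ} {ν : Measure ℝ} [IsProbabilityMeasure ν]

/-- the coupling law -/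
noncomputable abbrev pl (ν : Measure ℝ) (n : ℕ) : Measure (Pair n → ℝ) :=
  Measure.pi fun _ : Pair n => ν

lemma abs_mean_le (J : Pair n → ℝ) (p : ℕ) (γ β : Fin p → ℝ) :
    |qaoaMean J p γ β| ≤ (Real.sqrt n)⁻¹ * ∑ e, |J e| := by
  rw [qaoaMean_eq]
  refine (Finset.abs_sum_le_sum_abs _ _).trans ?_
  have h1 := norm_qaoaState J p γ β
  calc ∑ s, |‖qaoaState J p γ β s‖ ^ 2 * skEnergy J s|
      ≤ ∑ s, ‖qaoaState J p γ β s‖ ^ 2 * ((Real.sqrt n)⁻¹ * ∑ e, |J e|) := by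
        refine Finset.sum_le_sum fun s _ => ?_
        rw [abs_mul, abs_of_nonneg (by positivity : (0 : ℝ) ≤ ‖qaoaState J p γ β s‖ ^ 2)]
        exact mul_le_mul_of_nonneg_left (U.abs_skEnergy_le J s) (by positivity)
    _ = (Real.sqrt n)⁻¹ * ∑ e, |J e| := by
        rw [← Finset.sum_mul, h1, one_mul]

lemma meas_mean (p : ℕ) (γ β : Fin p → ℝ) :
    Measurable (fun J : Pair n → ℝ => qaoaMean J p γ β) := by
  have h1 : (fun J : Pair n → ℝ => qaoaMean J p γ β)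
      = fun J => ∑ s, ‖qaoaState J p γ β s‖ ^ 2 * skEnergy J s := by
    funext J; exact qaoaMean_eq J p γ β
  rw [h1]
  refine Finset.measurable_fun_sum _ fun s _ => ?_
  exact ((measurable_qaoaState p γ β s).norm.pow_const 2).mul (U.measurable_skE s)

lemma of_lin (hi : Integrable (fun x : ℝ => x) ν) {F : (Pair n → ℝ) → ℝ} (hF : Measurable F)
    (hC : ∀ x, |F x| ≤ (Real.sqrt n)⁻¹ * ∑ e, |x e|) : Integrable F (pl ν n) := by
  refine U.integrable_of_lin (C := (Real.sqrt n)⁻¹) (fun _ => ν) (fun _ => hi) hF fun x => ?_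
  refine (hC x).trans ?_
  have h5 : (0 : ℝ) ≤ (Real.sqrt n)⁻¹ := by positivity
  apply mul_le_mul_of_nonneg_left _ h5
  linarith

lemma int_mean (hi : Integrable (fun x : ℝ => x) ν) (p : ℕ) (γ β : Fin p → ℝ) :
    Integrable (fun J : Pair n → ℝ => qaoaMean J p γ β) (pl ν n) :=
  of_lin hi (meas_mean p γ β) fun J => abs_mean_le J p γ β

lemma int_sup (hi : Integrable (fun x : ℝ => x) ν) :
    Integrable (fun J : Pair n → ℝ => ⨆ s : Conf n, skEnergy J s) (pl ν n) :=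
  of_lin hi U.measurable_sup fun J => U.abs_sup_le J

/-- the error of the measured string -/
noncomputable def er (J : Pair n → ℝ) (p : ℕ) (γ β : Fin p → ℝ) : ℝ :=
  ∑ z : Conf n, ‖qaoaState J p γ β z‖ ^ 2 * |(n : ℝ)⁻¹ * skEnergy J z - Pstar|

lemma er_nonneg (J : Pair n → ℝ) (p : ℕ) (γ β : Fin p → ℝ) : 0 ≤ er J p γ β :=
  Finset.sum_nonneg fun z _ => by positivity

lemma int_er (hi : Integrable (fun x : ℝ => x) ν) (p : ℕ) (γ β : Fin p → ℝ) :
    Integrable (fun J : Pair n → ℝ => er J p γ β) (pl ν n) := by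
  unfold er
  apply integrable_finsetSum
  intro s _
  have h0 : Integrable (fun J : Pair n → ℝ => skEnergy J s) (pl ν n) :=
    of_lin hi (U.measurable_skE s) fun J => U.abs_skEnergy_le J s
  have hi : Integrable (fun J : Pair n → ℝ => (n : ℝ)⁻¹ * skEnergy J s - Pstar)
      (pl ν n) := (h0.const_mul _).sub (integrable_const _)
  refine hi.abs.mono' ?_ (Filter.Eventually.of_forall fun J => ?_)
  · apply Measurable.aestronglyMeasurable
    refine ((measurable_qaoaState p γ β s).norm.pow_const 2).mul ?_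
    exact (((U.measurable_skE s).const_mul _).sub measurable_const).abs
  · rw [norm_mul, Real.norm_eq_abs, Real.norm_eq_abs, abs_abs, abs_of_nonneg (by positivity)]
    calc ‖qaoaState J p γ β s‖ ^ 2 * |(n : ℝ)⁻¹ * skEnergy J s - Pstar|
        ≤ 1 * |(n : ℝ)⁻¹ * skEnergy J s - Pstar| :=
          mul_le_mul_of_nonneg_right (state_sq_le J p γ β s) (abs_nonneg _)
      _ = _ := one_mul _

/-- pointwise bound of the error -/
lemma er_le (G : ℝ) (J : Pair n → ℝ) (p : ℕ) (γ β : Fin p → ℝ) :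
    er J p γ β ≤
      ((n : ℝ)⁻¹ * (⨆ s : Conf n, skEnergy J s) - (n : ℝ)⁻¹ * qaoaMean J p γ β) +
      (|(n : ℝ)⁻¹ * (⨆ s : Conf n, skEnergy J s) - G| + |G - Pstar|) := by
  unfold er
  have h1 := norm_qaoaState J p γ β
  rw [qaoaMean_eq]
  have h2 : ((n : ℝ)⁻¹ * (⨆ s : Conf n, skEnergy J s) -
      (n : ℝ)⁻¹ * ∑ s, ‖qaoaState J p γ β s‖ ^ 2 * skEnergy J s) +
      (|(n : ℝ)⁻¹ * (⨆ s : Conf n, skEnergy J s) - G| + |G - Pstar|) =
      ∑ z : Conf n, ‖qaoaState J p γ β z‖ ^ 2 * ((n : ℝ)⁻¹ * (⨆ s : Conf n, skEnergy J s) -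
        (n : ℝ)⁻¹ * skEnergy J z +
      (|(n : ℝ)⁻¹ * (⨆ s : Conf n, skEnergy J s) - G| + |G - Pstar|)) := by
    simp only [mul_add, mul_sub, Finset.sum_add_distrib, Finset.sum_sub_distrib]
    simp only [← Finset.sum_mul, h1, one_mul]
    rw [Finset.mul_sum]
    congr 2
    refine Finset.sum_congr rfl fun s _ => ?_
    ring
  rw [h2]
  refine Finset.sum_le_sum fun z _ => ?_
  refine mul_le_mul_of_nonneg_left ?_ (by positivity)
  have hn : (0 : ℝ) ≤ (n : ℝ)⁻¹ := by positivity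
  have h3 : skEnergy J z ≤ ⨆ s : Conf n, skEnergy J s :=
    le_ciSup (Set.finite_range fun s : Conf n => skEnergy J s).bddAbove z
  have h4 : (n : ℝ)⁻¹ * skEnergy J z ≤ (n : ℝ)⁻¹ * ⨆ s : Conf n, skEnergy J s :=
    mul_le_mul_of_nonneg_left h3 hn
  have h5 := le_abs_self ((n : ℝ)⁻¹ * (⨆ s : Conf n, skEnergy J s) - G)
  have h6 := neg_abs_le ((n : ℝ)⁻¹ * (⨆ s : Conf n, skEnergy J s) - G)
  have h7 := le_abs_self (G - Pstar)
  have h8 := neg_abs_le (G - Pstar)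
  rw [abs_le]
  constructor <;> linarith

/-- mean ground state energy density -/
noncomputable def gv (ν : Measure ℝ) (n : ℕ) : ℝ :=
  (n : ℝ)⁻¹ * ∫ J, (⨆ s : Conf n, skEnergy J s) ∂(pl ν n)

/-- mean QAOA energy density -/
noncomputable def qv (ν : Measure ℝ) (n p : ℕ) (γ β : Fin p → ℝ) : ℝ :=
  (n : ℝ)⁻¹ * ∫ J, qaoaMean J p γ β ∂(pl ν n)

lemma mean_er_le (hi : Integrable (fun x : ℝ => x) ν) (p : ℕ) (γ β : Fin p → ℝ) :
    ∫ J, er J p γ β ∂(pl ν n) ≤ (gv ν n - qv ν n p γ β) +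
      (∫ J, |(n : ℝ)⁻¹ * (⨆ s : Conf n, skEnergy J s) - gv ν n| ∂(pl ν n) +
        |gv ν n - Pstar|) := by
  have i1 : Integrable (fun J : Pair n → ℝ => (n : ℝ)⁻¹ * (⨆ s : Conf n, skEnergy J s))
    (pl ν n) := (int_sup hi).const_mul _
  have i2 : Integrable (fun J : Pair n → ℝ => (n : ℝ)⁻¹ * qaoaMean J p γ β) (pl ν n) :=
    (int_mean hi p γ β).const_mul _
  have i3 : Integrable (fun J : Pair n → ℝ =>
      |(n : ℝ)⁻¹ * (⨆ s : Conf n, skEnergy J s) - gv ν n|) (pl ν n) :=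
    (i1.sub (integrable_const _)).abs
  have h1 : ∫ J, er J p γ β ∂(pl ν n) ≤ ∫ J, (((n : ℝ)⁻¹ * (⨆ s : Conf n, skEnergy J s) -
      (n : ℝ)⁻¹ * qaoaMean J p γ β) +
      (|(n : ℝ)⁻¹ * (⨆ s : Conf n, skEnergy J s) - gv ν n| + |gv ν n - Pstar|))
      ∂(pl ν n) := by
    exact integral_mono (int_er hi p γ β) ((i1.sub i2).add (i3.add (integrable_const _)))
      fun J => er_le (gv ν n) J p γ β
  have e1 : ∫ J, (((n : ℝ)⁻¹ * (⨆ s : Conf n, skEnergy J s) -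
      (n : ℝ)⁻¹ * qaoaMean J p γ β) +
      (|(n : ℝ)⁻¹ * (⨆ s : Conf n, skEnergy J s) - gv ν n| + |gv ν n - Pstar|))
      ∂(pl ν n) = ∫ J, ((n : ℝ)⁻¹ * (⨆ s : Conf n, skEnergy J s) -
      (n : ℝ)⁻¹ * qaoaMean J p γ β) ∂(pl ν n) +
      ∫ J, (|(n : ℝ)⁻¹ * (⨆ s : Conf n, skEnergy J s) - gv ν n| +
        |gv ν n - Pstar|) ∂(pl ν n) :=
    integral_add (i1.sub i2) (i3.add (integrable_const _))
  have e2 : ∫ J, ((n : ℝ)⁻¹ * (⨆ s : Conf n, skEnergy J s) -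
      (n : ℝ)⁻¹ * qaoaMean J p γ β) ∂(pl ν n) = gv ν n - qv ν n p γ β := by
    rw [integral_sub i1 i2, integral_const_mul, integral_const_mul]
    rfl
  have e3 : ∫ J, (|(n : ℝ)⁻¹ * (⨆ s : Conf n, skEnergy J s) - gv ν n| +
        |gv ν n - Pstar|) ∂(pl ν n) =
      ∫ J, |(n : ℝ)⁻¹ * (⨆ s : Conf n, skEnergy J s) - gv ν n| ∂(pl ν n) +
      |gv ν n - Pstar| := by
    rw [integral_add i3 (integrable_const _), integral_const]
    simp
  rw [e1, e2, e3] at h1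
  exact h1

/-- concentration of the ground state energy -/
theorem conc (h2 : Integrable (fun x : ℝ => x ^ 2) ν) (hs : ∫ x : ℝ, x ^ 2 ∂ν = 1) (n : ℕ)
    (hn : 1 ≤ n) :
    ∫ J, |(n : ℝ)⁻¹ * (⨆ s : Conf n, skEnergy J s) - gv ν n| ∂(pl ν n) ≤
      (Real.sqrt n)⁻¹ := by
  have hn0 : (0 : ℝ) < n := by exact_mod_cast hn
  have hid : MemLp (id : ℝ → ℝ) 2 ν := by
    rw [memLp_two_iff_integrable_sq measurable_id.aestronglyMeasurable]
    simpa using h2
  have h1 := dev_le hid hs (inv_nonneg.2 (Real.sqrt_nonneg n)) (sup_L1 n)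
  have h2 : (fun J : Pair n → ℝ => |(n : ℝ)⁻¹ * (⨆ s : Conf n, skEnergy J s) - gv ν n|) =
      fun J => (n : ℝ)⁻¹ * |(⨆ s : Conf n, skEnergy J s) -
        ∫ y, (⨆ s : Conf n, skEnergy y s) ∂(Measure.pi fun _ : Pair n => ν)| := by
    funext J
    unfold gv
    rw [← mul_sub, abs_mul, abs_of_pos (inv_pos.2 hn0)]
  rw [h2, integral_const_mul]
  have h3 : (Fintype.card (Pair n) : ℝ) ≤ (n : ℝ) ^ 2 := by
    have h4 : Fintype.card (Pair n) ≤ Fintype.card (Fin n × Fin n) :=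
      Fintype.card_subtype_le _
    rw [Fintype.card_prod, Fintype.card_fin] at h4
    rw [pow_two]
    exact_mod_cast h4
  have h4 : Real.sqrt (Fintype.card (Pair n) * ((Real.sqrt n)⁻¹) ^ 2) ≤ n * (Real.sqrt n)⁻¹ := by
    rw [Real.sqrt_le_left (by positivity), mul_pow]
    gcongr
  calc _ ≤ (n : ℝ)⁻¹ * (n * (Real.sqrt n)⁻¹) := by
        refine mul_le_mul_of_nonneg_left (le_trans ?_ h4) (by positivity)
        exact h1
    _ = (Real.sqrt n)⁻¹ := by rw [← mul_assoc, inv_mul_cancel₀ hn0.ne', one_mul]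

lemma prob_of_er (hi : Integrable (fun x : ℝ => x) ν) (p : ℕ) (γ β : Fin p → ℝ) {ε : ℝ}
    (hε : 0 < ε) (h : ∫ J, er J p γ β ∂(pl ν n) ≤ ε ^ 3) :
    1 - ε ≤ (pl ν n).real {J | 1 - ε ≤ nearProb J p γ β ε} := by
  have hF0 : 0 ≤ᵐ[pl ν n] fun J => er J p γ β :=
    Filter.Eventually.of_forall fun J => er_nonneg J p γ β
  have h1 := mul_meas_ge_le_integral_of_nonneg hF0 (int_er hi p γ β) (ε ^ 2)
  have h2 : (pl ν n).real {J | ε ^ 2 ≤ er J p γ β} ≤ ε := by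
    have h3 : ε ^ 2 * (pl ν n).real {J | ε ^ 2 ≤ er J p γ β} ≤ ε ^ 2 * ε := by
      refine h1.trans (h.trans (le_of_eq ?_))
      ring
    exact le_of_mul_le_mul_left h3 (by positivity)
  have h4 : {J : Pair n → ℝ | 1 - ε ≤ nearProb J p γ β ε}ᶜ ⊆ {J | ε ^ 2 ≤ er J p γ β} := by
    intro J hJ
    simp only [Set.mem_compl_iff, Set.mem_ofPred_eq, not_le] at hJ ⊢
    have h5 := near_add J p γ β hε
    have h6 : ε < ε⁻¹ * er J p γ β := by
      refine lt_of_lt_of_le ?_ h5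
      linarith
    rw [inv_mul_eq_div, lt_div_iff₀ hε] at h6
    rw [pow_two]
    exact h6.le
  have h5 : (pl ν n).real {J | 1 - ε ≤ nearProb J p γ β ε}ᶜ ≤ ε :=
    (measureReal_mono h4).trans h2
  have h6 : 1 ≤ (pl ν n).real {J | 1 - ε ≤ nearProb J p γ β ε} +
      (pl ν n).real {J | 1 - ε ≤ nearProb J p γ β ε}ᶜ := by
    have := measureReal_union_le (μ := pl ν n) {J | 1 - ε ≤ nearProb J p γ β ε}
      {J | 1 - ε ≤ nearProb J p γ β ε}ᶜ
    rw [Set.union_compl_self] at this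
    simpa using this
  linarith

/-- **One circuit for all coupling laws**, typical instances and measured strings. -/
theorem one_circuit
    (hf : ∀ ε : ℝ, 0 < ε → ∃ (p : ℕ) (γ β : Fin p → ℝ),
      ∀ᶠ n in atTop, groundValue n - ε ≤ qaoaValue n p γ β) :
    ∀ ε : ℝ, 0 < ε → ∃ (p : ℕ) (γ β : Fin p → ℝ), ∀ ν : Measure ℝ, IsProbabilityMeasure ν →
      ∫ x : ℝ, x ∂ν = 0 → ∫ x : ℝ, x ^ 2 ∂ν = 1 →
      ∀ᶠ n : ℕ in atTop,
        (n : ℝ)⁻¹ * (∫ J, (⨆ s : Conf n, skEnergy J s) ∂(Measure.pi fun _ : Pair n => ν)) - ε ≤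
          (n : ℝ)⁻¹ * ∫ J, qaoaMean J p γ β ∂(Measure.pi fun _ : Pair n => ν) ∧
        1 - ε ≤ (Measure.pi fun _ : Pair n => ν).real {J | 1 - ε ≤ nearProb J p γ β ε} := by
  intro ε hε
  have hδ : 0 < min ε (ε ^ 3) / 4 := by positivity
  obtain ⟨p, γ, β, h⟩ := hf (min ε (ε ^ 3) / 4) hδ
  refine ⟨p, γ, β, fun ν hν e1 e2 => ?_⟩
  have s2 := U.sq_of_one ν e2
  have hi := U.integrable_id_of_sq ν s2
  have hlim : Pstar - min ε (ε ^ 3) / 4 ≤ vLim p γ β :=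
    le_of_tendsto_of_tendsto (tendsto_Pstar.sub_const _) (tendsto_vLim p γ β) h
  have t1 : Tendsto (fun n => gv ν n) atTop (𝓝 Pstar) :=
    U.ground_tendsto tendsto_Pstar ν (U.mom_of ν e1 e2)
  have t2 : Tendsto (fun n => qv ν n p γ β) atTop (𝓝 (vLim p γ β)) :=
    U.value_tendsto ν s2 e1 e2 p γ β
  have t3 := t1.sub t2
  have h4 : Pstar - vLim p γ β < min ε (ε ^ 3) / 2 := by linarith
  have t4 : Tendsto (fun n : ℕ => (Real.sqrt n)⁻¹) atTop (𝓝 0) :=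
    tendsto_inv_atTop_zero.comp
      (Real.tendsto_sqrt_atTop.comp tendsto_natCast_atTop_atTop)
  have t5 : Tendsto (fun n : ℕ => |gv ν n - Pstar|) atTop (𝓝 0) := by
    have h2 := (t1.sub_const Pstar).abs
    rwa [sub_self, abs_zero] at h2
  have m1 : min ε (ε ^ 3) ≤ ε := min_le_left _ _
  have m2 : min ε (ε ^ 3) ≤ ε ^ 3 := min_le_right _ _
  filter_upwards [t3.eventually_lt_const h4, eventually_ge_atTop 1,
    t4.eventually_le_const hδ, t5.eventually_le_const hδ] with n h5 h6 h7 h8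
  refine ⟨?_, ?_⟩
  · have : gv ν n - ε ≤ qv ν n p γ β := by linarith
    exact this
  · refine prob_of_er hi p γ β hε ?_
    have h9 := mean_er_le (n := n) hi p γ β
    have h10 := conc s2 e2 n h6
    linarith

end Vale.Agent.P367.H84.V
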